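import Mathlib
import Vale.Agent.P219.Transport

/-!
P219 (conformal part): approximate transport to the centred unit ball with no base parameter.
The gradient `T` of the potential has small mean, so `∫ ⟪T (g x), g x⟫` is almost nonnegative by
monotonicity alone.
-/

open MeasureTheory Metric Filter Topology Set
open scoped RealInnerProductSpace ENNReal BoundedContinuousFunction

namespace Vale.Agent.P219.Conformal

variable {E : Type*} [NormedAddCommGroup E] [InnerProductSpace ℝ E] [FiniteDimensional ℝ E]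
  [MeasurableSpace E] [BorelSpace E]

lemma integral_inner_vB (m : E) : ∫ y : Bl E, ⟪m, (y : E)⟫ ∂vB E = 0 := by
  rw [show vB E = Measure.comap Subtype.val volume from rfl,
    integral_subtype_comap (μ := (volume : Measure E)) measurableSet_closedBall fun y => ⟪m, y⟫]
  have h := (Measure.measurePreserving_neg (volume : Measure E)).setIntegral_preimage_emb
    (MeasurableEquiv.neg E).measurableEmbedding (fun y => ⟪m, y⟫) (closedBall (0 : E) 1)
  rw [show Neg.neg ⁻¹' closedBall (0 : E) 1 = closedBall (0 : E) 1 by ext; simp] at h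
  simp only [inner_neg_right, integral_neg] at h
  linarith

/-- Approximate transport of `μ.map g` to the unit ball, with small first moment. -/
theorem transport_centred {X : Type*} [TopologicalSpace X] [MeasurableSpace X] [BorelSpace X]
    (μ : Measure X) [IsFiniteMeasure μ] (K : Set X) (hK : IsCompact K) (hμK : μ Kᶜ = 0)
    (hmass : μ univ = volume (ball (0 : E) 1))
    (g : X → E) (hg : Continuous g) (hac : μ.map g ≪ volume)
    {L : ℝ} (hL : ∀ x ∈ K, ‖g x‖ ≤ L) (η : ℝ) (h0 : 0 < η) (h1 : η < 1) :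
    ∃ (T : E → E) (A : E → E →L[ℝ] E) (Tk : ℕ → E → E),
      (∀ k, ContDiff ℝ 1 (Tk k)) ∧ (∀ k y, ‖Tk k y‖ ≤ 1) ∧
      (∀ k y, LinearMap.IsPositive ((fderiv ℝ (Tk k) y).toLinearMap)) ∧
      Measurable T ∧ (∀ y, ‖T y‖ ≤ 1) ∧
      -(η * L * (volume (ball (0 : E) 1)).toReal) ≤ ∫ x, ⟪T (g x), g x⟫ ∂μ ∧
      (∀ᵐ y : E, Tendsto (fun k => Tk k y) atTop (𝓝 (T y))) ∧
      (∀ᵐ y : E, Tendsto (fun k => fderiv ℝ (Tk k) y) atTop (𝓝 (A y))) ∧
      (∀ᵐ y : E, ∀ θ : ℝ, 0 ≤ θ →
        (∀ᶠ r in 𝓝[>] (0 : ℝ),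
          ENNReal.ofReal θ * volume (ball y r) ≤ μ.map g (ball y r)) →
        θ ≤ (1 + η) * LinearMap.det ((A y).toLinearMap)) := by
  obtain ⟨m', -, hm, -⟩ := exists_minimizer μ hK hμK hmass (fun _ => g)
    (hg.comp continuous_snd) (0 : ℝ) h0 h1
  set ψ := m' ⟨0, mem_closedBall_self le_rfl⟩
  have hmin : ∀ ψ', energy μ η g ψ ≤ energy μ η g ψ' := hm ⟨0, mem_closedBall_self le_rfl⟩
  set φ := phi ψ
  have hlip : LipschitzWith 1 φ := lipschitz_phi ψ
  have hsub : ∀ y, ∃ p, Subgr φ y p := exists_subgr ψ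
  let T : E → Bl E := fun z =>
    ⟨gradient φ z, mem_closedBall_zero_iff.2 (norm_gradient_le ψ z)⟩
  have hTm : Measurable T :=
    ((InnerProductSpace.toDual ℝ E).symm.continuous.measurable.comp
      (measurable_fderiv ℝ φ)).subtype_mk
  have hgm := hg.measurable
  have hTG : Measurable fun x => T (g x) := hTm.comp hgm
  have hdiff : ∀ᵐ x ∂μ, DifferentiableAt ℝ φ (g x) :=
    ae_of_ae_map hgm.aemeasurable (hac.ae_le hlip.ae_differentiableAt)
  have hkey := integral_comp_gradient_le μ hK hμK hg h0.le ψ hmin hdiff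
  -- closed sets
  have hC : ∀ C : Set E, IsClosed C →
      μ.map g {y | gradient φ y ∈ C} ≤ ENNReal.ofReal (1 + η) * volume C := by
    intro C hC
    set F : Set (Bl E) := Subtype.val ⁻¹' C
    have hFc : IsClosed F := hC.preimage continuous_subtype_val
    set ν := μ.map fun x => T (g x)
    have hpos : ∀ n : ℕ, (0 : ℝ) < 1 / (n + 1) := fun n => by positivity
    have hreal : ν.real F ≤ (1 + η) * (vB E).real F := by
      refine le_of_tendsto_of_tendsto
        (tendsto_integral_thickenedIndicator_of_isClosed ν hFc hpos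
          tendsto_one_div_add_atTop_nhds_zero_nat)
        ((tendsto_integral_thickenedIndicator_of_isClosed (vB E) hFc hpos
          tendsto_one_div_add_atTop_nhds_zero_nat).const_mul (1 + η))
        (Eventually.of_forall fun n => ?_)
      dsimp only
      rw [integral_map hTG.aemeasurable (by fun_prop)]
      exact hkey (BoundedContinuousFunction.mkOfCompact
        ⟨fun y => (thickenedIndicator (hpos n) F y : ℝ), by fun_prop⟩) fun y => NNReal.coe_nonneg _
    have hEQ : μ.map g {y | gradient φ y ∈ C} = ν F := by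
      rw [Measure.map_apply hTG hFc.measurableSet,
        show {y | gradient φ y ∈ C} = T ⁻¹' F from rfl,
        Measure.map_apply hgm (hTm hFc.measurableSet)]
      rfl
    rw [hEQ]
    calc ν F = ENNReal.ofReal (ν.real F) := (ENNReal.ofReal_toReal (measure_ne_top _ _)).symm
      _ ≤ ENNReal.ofReal ((1 + η) * (vB E).real F) := ENNReal.ofReal_le_ofReal hreal
      _ = ENNReal.ofReal (1 + η) * vB E F := by
          rw [ENNReal.ofReal_mul (by linarith), measureReal_def,
            ENNReal.ofReal_toReal (measure_ne_top _ _)]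
      _ ≤ _ := by
          gcongr
          rw [vB_apply]
          exact measure_mono (image_preimage_subset _ _)
  -- mollification and the almost everywhere expansion
  obtain ⟨Tk, hTk1, hTk2, hTk3, hTk4⟩ := exists_mollified hlip hsub
  obtain ⟨A, hA⟩ : ∃ A : E → E →L[ℝ] E, ∀ᵐ y : E, ∃ p, Subgr φ y p ∧
      ∀ ε > 0, ∀ᶠ h in 𝓝 (0 : E), ∀ q, Subgr φ (y + h) q → ‖q - p - A y h‖ ≤ ε * ‖h‖ := by
    classical
    refine ⟨fun y => if h : ∃ A : E →L[ℝ] E, ∃ p, Subgr φ y p ∧ ∀ ε > 0, ∀ᶠ h in 𝓝 (0 : E),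
      ∀ q, Subgr φ (y + h) q → ‖q - p - A h‖ ≤ ε * ‖h‖ then h.choose else 0,
      (ae_expansion hsub hlip).mono fun y hy => ?_⟩
    obtain ⟨p, A, hp, hA⟩ := hy
    have hex : ∃ A : E →L[ℝ] E, ∃ p, Subgr φ y p ∧ ∀ ε > 0, ∀ᶠ h in 𝓝 (0 : E),
      ∀ q, Subgr φ (y + h) q → ‖q - p - A h‖ ≤ ε * ‖h‖ := ⟨A, p, hp, hA⟩
    simp only [dif_pos hex]
    exact hex.choose_spec
  have hgood : ∀ᵐ y : E,
      Tendsto (fun k => Tk k y) atTop (𝓝 (gradient φ y)) ∧
      Tendsto (fun k => fderiv ℝ (Tk k) y) atTop (𝓝 (A y)) ∧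
      ∀ ε > 0, ∀ᶠ h in 𝓝 (0 : E), ∀ q, Subgr φ (y + h) q →
        ‖q - gradient φ y - A y h‖ ≤ ε * ‖h‖ := by
    filter_upwards [hA, hlip.ae_differentiableAt] with y hy hd
    obtain ⟨p, hp, hexp⟩ := hy
    obtain rfl := hp.eq_gradient hd
    exact ⟨(hTk4 y _ (A y) hp hexp).1, (hTk4 y _ (A y) hp hexp).2, hexp⟩
  refine ⟨gradient φ, A, Tk, hTk1, hTk2, hTk3,
    (InnerProductSpace.toDual ℝ E).symm.continuous.measurable.comp (measurable_fderiv ℝ φ),
    norm_gradient_le ψ, ?_, hgood.mono fun y hy => hy.1, hgood.mono fun y hy => hy.2.1,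
    hgood.mono fun y hy θ _ hθ => ?_⟩
  · -- the first moment
    set β := (volume (ball (0 : E) 1)).toReal with hβ
    have hβ0 : 0 < β :=
      ENNReal.toReal_pos (measure_ball_pos _ _ one_pos).ne' measure_ball_lt_top.ne
    have hμr : μ.real univ = β := by rw [measureReal_def, hmass]
    have hVr : (vB E).real univ = β := by
      rw [measureReal_def, vB_apply, image_univ, Subtype.range_coe, volume_closedBall_eq_ball]
    have hgi : Integrable g μ := Integrable.of_bound hg.aestronglyMeasurable L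
      (Eventually.mono (mem_ae_iff.2 hμK) hL)
    set v : E := β⁻¹ • ∫ x, g x ∂μ with hv
    have hvL : ‖v‖ ≤ L := by
      rw [hv, norm_smul, norm_inv, Real.norm_of_nonneg hβ0.le, inv_mul_le_iff₀ hβ0]
      have := norm_integral_le_of_norm_le_const (μ := μ) (C := L)
        (Eventually.mono (mem_ae_iff.2 hμK) hL)
      rwa [hμr, mul_comm] at this
    have hTi : ∀ w : E, Integrable (fun x => ⟪w, gradient φ (g x)⟫) μ := fun w =>
      Integrable.of_bound ((continuous_const.inner continuous_id).measurable.comp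
        (measurable_subtype_coe.comp hTG)).aestronglyMeasurable ‖w‖
        (ae_of_all _ fun x => (Real.norm_eq_abs _).trans_le
          ((abs_real_inner_le_norm _ _).trans
            (mul_le_of_le_one_right (norm_nonneg _) (norm_gradient_le ψ _))))
    have hmom : -(η * ‖v‖ * β) ≤ ∫ x, ⟪v, gradient φ (g x)⟫ ∂μ := by
      have h := hkey (BoundedContinuousFunction.mkOfCompact
        ⟨fun y => ‖v‖ - ⟪v, (y : E)⟫, by fun_prop⟩) (fun y => by
          simp only [BoundedContinuousFunction.mkOfCompact_apply, ContinuousMap.coe_mk]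
          have := (real_inner_le_norm v (y : E)).trans
            (mul_le_of_le_one_right (norm_nonneg _) y.norm_le)
          linarith)
      simp only [BoundedContinuousFunction.mkOfCompact_apply, ContinuousMap.coe_mk] at h
      rw [integral_sub (integrable_const _) (hTi v), integral_const, hμr,
        integral_sub (integrable_const _) (integrable_comp_compact _ isCompact_univ (by simp)
          (show Continuous fun y : Bl E => ⟪v, (y : E)⟫ by fun_prop)),
        integral_const, hVr, integral_inner_vB, smul_eq_mul] at h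
      linarith
    obtain ⟨p, hp⟩ := hsub v
    have hle : ∀ᵐ x ∂μ, ⟪v, gradient φ (g x)⟫ + (⟪p, g x⟫ - ⟪p, v⟫) ≤ ⟪gradient φ (g x), g x⟫ := by
      filter_upwards [hdiff] with x hx
      have := (subgr_gradient hsub hx).inner_nonneg hp
      rw [inner_sub_left, inner_sub_right, inner_sub_right, real_inner_comm v] at this
      linarith
    have hpi : Integrable (fun x => ⟪p, g x⟫) μ := hgi.const_inner p
    have hcross : Integrable (fun x => ⟪gradient φ (g x), g x⟫) μ :=
      Integrable.of_bound ((measurable_subtype_coe.comp hTG).aestronglyMeasurable.inner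
        hg.aestronglyMeasurable) L
        (Eventually.mono (mem_ae_iff.2 hμK) fun x hx => (Real.norm_eq_abs _).trans_le
          ((abs_real_inner_le_norm _ _).trans
            ((mul_le_of_le_one_left (norm_nonneg _) (norm_gradient_le ψ _)).trans (hL x hx))))
    have hsi : Integrable (fun x => ⟪p, g x⟫ - ⟪p, v⟫) μ := hpi.sub (integrable_const _)
    have hI := integral_mono_ae ((hTi v).add hsi) hcross hle
    simp only [Pi.add_apply] at hI
    rw [integral_add (hTi v) hsi, integral_sub hpi (integrable_const _), integral_const, hμr,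
      integral_inner hgi, smul_eq_mul] at hI
    have hz : ⟪p, ∫ x, g x ∂μ⟫ = β * ⟪p, v⟫ := by
      rw [hv, real_inner_smul_right, ← mul_assoc, mul_inv_cancel₀ hβ0.ne', one_mul]
    have h5 : η * ‖v‖ * β ≤ η * L * β := by gcongr
    linarith
  · refine le_det_of_expansion hlip hsub _ hac h0.le hC y (gradient φ y) (A y) ?_ hy.2.2 hθ
    have hpos : ∀ k, 0 ≤ LinearMap.det (fderiv ℝ (Tk k) y).toLinearMap := fun k =>
      det_nonneg_of_isPositive (hTk3 k y)
    exact ge_of_tendsto' ((ContinuousLinearMap.continuous_det.tendsto (A y)).comp hy.2.1) hpos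

end Vale.Agent.P219.Conformal
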