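import Mathlib
import Vale.Agent.P219.Defs

/-!
P219 (conformal part): definitions used in the statement for the metrics `δ/u²`.
-/

open MeasureTheory Set

namespace Vale.Agent.P219.Conformal

variable {n : ℕ}

/-- The volume density of `δ/u²` on `U`, extended by zero. -/
noncomputable def wt (U : Set (Coord n)) (u : Coord n → ℝ) (x : Coord n) : ℝ :=
  U.indicator (fun x => (u x ^ n)⁻¹) x

/-- The Riemannian norm of a differential times the volume density. -/
noncomputable def gradDens (U : Set (Coord n)) (u v : Coord n → ℝ) (x : Coord n) : ℝ :=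
  ‖fderiv ℝ v x‖ * u x * wt U u x

/-- The hypotheses on the conformal factor. -/
structure Factor (U : Set (Coord n)) (u : Coord n → ℝ) : Prop where
  isOpen : IsOpen U
  smooth : ContDiffOn ℝ 2 u U
  pos : ∀ x ∈ U, 0 < u x
  concave : ∀ x ∈ U, ∀ z, fderiv ℝ (fderiv ℝ u) x z z ≤ 0

end Vale.Agent.P219.Conformal
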