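import Mathlib
import Vale.Agent.P219.LinAlg
import Vale.Agent.P219.Conformal.Defs

/-!
P219 (conformal part): the divergence identity for the metric `δ/u²` in the frame `u ∂_i` and the
resulting flux bound.
-/

open MeasureTheory Metric Set Filter Topology
open scoped RealInnerProductSpace

namespace Vale.Agent.P219.Conformal

variable {n : ℕ}

variable {U : Set (Coord n)} {u : Coord n → ℝ}

lemma wt_pos (hu0 : ∀ x ∈ U, 0 < u x) {x : Coord n} (hx : x ∈ U) : 0 < wt U u x := by
  rw [wt, indicator_of_mem hx]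
  exact inv_pos.2 (pow_pos (hu0 x hx) _)

lemma wt_nonneg (hu0 : ∀ x ∈ U, 0 < u x) (x : Coord n) : 0 ≤ wt U u x :=
  indicator_nonneg (fun y hy => (inv_pos.2 (pow_pos (hu0 y hy) _)).le) x

lemma gradDens_nonneg (hu0 : ∀ x ∈ U, 0 < u x) (v : Coord n → ℝ) (x : Coord n) :
    0 ≤ gradDens U u v x := by
  by_cases hx : x ∈ U
  · exact mul_nonneg (mul_nonneg (norm_nonneg _) (hu0 x hx).le) (wt_nonneg hu0 x)
  · simp [gradDens, wt, indicator_of_notMem hx]

lemma continuousOn_wt (hu : ContinuousOn u U) (hu0 : ∀ x ∈ U, 0 < u x) :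
    ContinuousOn (wt U u) U :=
  ((hu.pow n).inv₀ fun x hx => (pow_pos (hu0 x hx) n).ne').congr fun _ hx => indicator_of_mem hx _

/-- A function continuous on `U` and vanishing off a compact subset of `U`. -/
lemma continuous_of_supp {Z : Type*} [TopologicalSpace Z] [Zero Z] (hU : IsOpen U)
    {K : Set (Coord n)} (hK : IsCompact K) (hKU : K ⊆ U) {F : Coord n → Z}
    (hF : ContinuousOn F U) (h0 : ∀ x ∉ K, F x = 0) : Continuous F := by
  refine continuous_iff_continuousAt.2 fun x => ?_
  by_cases hx : x ∈ U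
  · exact hF.continuousAt (hU.mem_nhds hx)
  · refine (continuousAt_const (y := (0 : Z))).congr ?_
    filter_upwards [hK.isClosed.isOpen_compl.mem_nhds fun h => hx (hKU h)] with y hy
    exact (h0 y hy).symm

lemma integrable_of_supp (hU : IsOpen U) {K : Set (Coord n)} (hK : IsCompact K) (hKU : K ⊆ U)
    {F : Coord n → ℝ} (hF : ContinuousOn F U) (h0 : ∀ x ∉ K, F x = 0) : Integrable F :=
  (continuous_of_supp hU hK hKU hF h0).integrable_of_hasCompactSupport
    (HasCompactSupport.intro hK h0)

lemma integral_partial_eq_zero {g : Coord n → ℝ} (hg : ContDiff ℝ 1 g) (hc : HasCompactSupport g)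
    (e : Coord n) : ∫ x, fderiv ℝ g x e = 0 := by
  have hi : Integrable fun x => fderiv ℝ g x e :=
    ((hg.continuous_fderiv one_ne_zero).clm_apply continuous_const).integrable_of_hasCompactSupport
      (hc.fderiv_apply ℝ e)
  have h := integral_mul_fderiv_eq_neg_fderiv_mul_of_integrable (μ := (volume : Measure (Coord n)))
    (f := fun _ : Coord n => (1 : ℝ)) (g := g) (v := e) (by simp) (by simpa using hi)
    (by simpa using hg.continuous.integrable_of_hasCompactSupport hc)
    (fun x _ => differentiableAt_const _) fun x _ => hg.differentiable one_ne_zero x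
  simpa using h

lemma continuousOn_fderiv' (hU : IsOpen U) {Z : Type*} [NormedAddCommGroup Z] [NormedSpace ℝ Z]
    {Y : Coord n → Z} (hY : ContDiffOn ℝ 1 Y U) : ContinuousOn (fderiv ℝ Y) U :=
  hY.continuousOn_fderiv_of_isOpen hU le_rfl

/-- The flux of a field of length at most one, in the metric `δ/u²`. -/
theorem flux_le (hn : 1 ≤ n) (hU : IsOpen U) (hu : ContDiffOn ℝ 1 u U)
    (hu0 : ∀ x ∈ U, 0 < u x) {v : Coord n → ℝ} (hv : ContDiff ℝ 1 v) (hvc : HasCompactSupport v)
    (hvU : tsupport v ⊆ U) {Y : Coord n → Coord n} (hY : ContDiffOn ℝ 1 Y U)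
    (hY1 : ∀ x ∈ U, ‖Y x‖ ≤ 1) :
    ∫ x, v x * (u x * (∑ i, fderiv ℝ Y x (EuclideanSpace.single i 1) i)
        - ((n : ℝ) - 1) * fderiv ℝ u x (Y x)) * wt U u x ≤ ∫ x, gradDens U u v x := by
  set K := tsupport v
  have hK : IsCompact K := hvc
  let s : Coord n → ℝ := fun x => u x * (u x ^ n)⁻¹
  let g : Fin n → Coord n → ℝ := fun i x => v x * (s x * Y x i)
  have hv0 : ∀ x ∉ K, v x = 0 := fun x hx => image_eq_zero_of_notMem_tsupport hx
  have hDv0 : ∀ x ∉ K, fderiv ℝ v x = 0 := fun x hx => fderiv_of_notMem_tsupport ℝ hx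
  have hun : ContDiffOn ℝ 1 (fun x => (u x ^ n)⁻¹) U :=
    (hu.pow n).inv fun x hx => (pow_pos (hu0 x hx) n).ne'
  have hsY : ∀ i, ContDiffOn ℝ 1 (fun x => s x * Y x i) U := fun i =>
    (hu.mul hun).mul ((contDiff_piLp_apply (p := 2)).comp_contDiffOn hY)
  have hg : ∀ i, ContDiff ℝ 1 (g i) := fun i => contDiff_iff_contDiffAt.2 fun x => by
    by_cases hx : x ∈ U
    · exact hv.contDiffAt.mul ((hsY i).contDiffAt (hU.mem_nhds hx))
    · refine (contDiffAt_const (c := (0 : ℝ))).congr_of_eventuallyEq ?_
      filter_upwards [hK.isClosed.isOpen_compl.mem_nhds fun h => hx (hvU h)] with y hy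
      simp [g, hv0 y hy]
  have hgc : ∀ i, HasCompactSupport (g i) := fun i => HasCompactSupport.intro hK fun x hx => by
    simp [g, hv0 x hx]
  let e : Fin n → Coord n := fun i => EuclideanSpace.single i 1
  let d : Coord n → ℝ := fun x => ∑ i, fderiv ℝ (g i) x (e i)
  have hd0 : ∫ x, d x = 0 := by
    rw [integral_finsetSum _ fun i _ => ?_]
    · exact Finset.sum_eq_zero fun i _ => integral_partial_eq_zero (hg i) (hgc i) _
    · exact (((hg i).continuous_fderiv one_ne_zero).clm_apply
        continuous_const).integrable_of_hasCompactSupport ((hgc i).fderiv_apply ℝ _)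
  let b : Coord n → ℝ := fun x => fderiv ℝ v x (Y x) * u x * wt U u x
  let a : Coord n → ℝ := fun x => v x * (u x * (∑ i, fderiv ℝ Y x (e i) i)
    - ((n : ℝ) - 1) * fderiv ℝ u x (Y x)) * wt U u x
  have hsum : ∀ (L : Coord n →L[ℝ] ℝ) (y : Coord n), ∑ i, L (e i) * y i = L y := by
    intro L y
    conv_rhs => rw [← (EuclideanSpace.basisFun (Fin n) ℝ).sum_repr y]
    simp [e, map_sum, mul_comm]
  have key : ∀ x, d x = a x + b x := by
    intro x
    by_cases hx : x ∈ U
    · have hux := (hu0 x hx)
      have hdu : HasFDerivAt u (fderiv ℝ u x) x :=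
        ((hu.differentiableOn one_ne_zero).differentiableAt (hU.mem_nhds hx)).hasFDerivAt
      have hdY : HasFDerivAt Y (fderiv ℝ Y x) x :=
        ((hY.differentiableOn one_ne_zero).differentiableAt (hU.mem_nhds hx)).hasFDerivAt
      have hdv := (hv.differentiable one_ne_zero x).hasFDerivAt
      have hinv : HasFDerivAt (fun y => (u y ^ n)⁻¹)
          ((-((u x ^ n) ^ 2)⁻¹ * ((n : ℝ) * u x ^ (n - 1))) • fderiv ℝ u x) x := by
        have h := (hasDerivAt_inv (pow_pos hux n).ne').comp_hasFDerivAt x (hdu.pow n)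
        refine HasFDerivAt.congr_fderiv h ?_
        ext w
        simp
        ring
      have hgi : ∀ i, fderiv ℝ (g i) x (e i) = fderiv ℝ v x (e i) * Y x i * (u x * (u x ^ n)⁻¹) +
          v x * (-((n : ℝ) - 1) * (u x ^ n)⁻¹) * (fderiv ℝ u x (e i) * Y x i) +
          v x * (u x * (u x ^ n)⁻¹) * fderiv ℝ Y x (e i) i := by
        intro i
        have hYi : HasFDerivAt (fun y => Y y i) ((EuclideanSpace.proj (𝕜 := ℝ) i).comp
            (fderiv ℝ Y x)) x := (EuclideanSpace.proj (𝕜 := ℝ) i).hasFDerivAt.comp x hdY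
        have hg' : HasFDerivAt (g i) _ x := hdv.mul ((hdu.mul hinv).mul hYi)
        rw [hg'.fderiv]
        simp [e, s]
        have hpow : u x ^ n = u x ^ (n - 1) * u x := by rw [← pow_succ, Nat.sub_add_cancel hn]
        have h1 : u x ^ (n - 1) ≠ 0 := (pow_pos hux _).ne'
        rw [hpow]
        field_simp
        ring
      simp only [d, a, b, hgi, wt, indicator_of_mem hx, Finset.sum_add_distrib, ← Finset.mul_sum,
        ← Finset.sum_mul, hsum]
      ring
    · have : x ∉ K := fun h => hx (hvU h)
      have h2 : ∀ i, fderiv ℝ (g i) x = 0 := fun i =>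
        fderiv_of_notMem_tsupport ℝ fun h => this <|
          closure_minimal (fun y hy => by_contra fun hc =>
              Function.mem_support.1 hy (by simp [g, hv0 y hc]))
            hK.isClosed h
      simp [d, a, b, h2, wt, indicator_of_notMem hx]
  have hwt := continuousOn_wt hu.continuousOn hu0
  have hDu : ContinuousOn (fun x => fderiv ℝ u x (Y x)) U :=
    (continuousOn_fderiv' hU hu).clm_apply hY.continuousOn
  have hDY : ContinuousOn (fun x => ∑ i, fderiv ℝ Y x (e i) i) U :=
    continuousOn_finsetSum _ fun i _ => (EuclideanSpace.proj (𝕜 := ℝ) i).continuous.comp_continuousOn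
      ((continuousOn_fderiv' hU hY).clm_apply continuousOn_const)
  have ha : Integrable a := integrable_of_supp hU hK hvU
    ((hv.continuous.continuousOn.mul
      ((hu.continuousOn.mul hDY).sub (continuousOn_const.mul hDu))).mul hwt)
    fun x hx => by simp [a, hv0 x hx]
  have hb : Integrable b := integrable_of_supp hU hK hvU
    ((((hv.continuous_fderiv one_ne_zero).continuousOn.clm_apply hY.continuousOn).mul
      hu.continuousOn).mul hwt) fun x hx => by simp [b, hDv0 x hx]
  have hG : Integrable (gradDens U u v) := integrable_of_supp hU hK hvU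
    (((hv.continuous_fderiv one_ne_zero).norm.continuousOn.mul hu.continuousOn).mul hwt)
    fun x hx => by simp [gradDens, hDv0 x hx]
  have h0 : (∫ x, a x) + ∫ x, b x = 0 := by
    rw [← integral_add ha hb, ← hd0]
    exact integral_congr_ae (Eventually.of_forall fun x => (key x).symm)
  calc ∫ x, a x = ∫ x, -b x := by rw [integral_neg]; linarith
    _ ≤ _ := integral_mono hb.neg hG fun x => by
      by_cases hx : x ∈ U
      · simp only [b, gradDens, ← neg_mul]
        refine mul_le_mul_of_nonneg_right (mul_le_mul_of_nonneg_right ?_ (hu0 x hx).le)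
          (wt_nonneg hu0 x)
        exact (neg_le_abs _).trans (((fderiv ℝ v x).le_opNorm _).trans
          (mul_le_of_le_one_right (norm_nonneg _) (hY1 x hx)))
      · simp [b, gradDens, wt, indicator_of_notMem hx]

end Vale.Agent.P219.Conformal
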