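import Mathlib
import Vale.Agent.P219.LinAlg
import Vale.Agent.P219.Conformal.Flux

/-!
P219 (conformal part): the chart `δ·id - (n-1) ∇u` of a positive concave function, the pull back of
null sets, and the lower density bound of the transported measure.
-/

open MeasureTheory Metric Set Filter Topology
open scoped RealInnerProductSpace

namespace Vale.Agent.P219.Conformal

variable {n : ℕ}

/-- A functional as a vector. -/
noncomputable def toVec (n : ℕ) : (Coord n →L[ℝ] ℝ) →L[ℝ] Coord n :=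
  ∑ i, (ContinuousLinearMap.apply ℝ ℝ (EuclideanSpace.single i (1:ℝ))).smulRight
    (EuclideanSpace.single i (1:ℝ))

lemma inner_toVec (L : Coord n →L[ℝ] ℝ) (y : Coord n) : ⟪toVec n L, y⟫ = L y := by
  conv_rhs => rw [← (EuclideanSpace.basisFun (Fin n) ℝ).sum_repr y]
  simp [toVec, sum_inner, inner_smul_left, EuclideanSpace.inner_single_left, map_sum, mul_comm]

/-- The chart. -/
noncomputable def chart (u : Coord n → ℝ) (δ : ℝ) (x : Coord n) : Coord n :=
  δ • x - ((n : ℝ) - 1) • toVec n (fderiv ℝ u x)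

variable {U : Set (Coord n)} {u : Coord n → ℝ}

lemma contDiffOn_fderiv (H : Factor U u) : ContDiffOn ℝ 1 (fderiv ℝ u) U :=
  H.smooth.fderiv_of_isOpen H.isOpen (by norm_num)

lemma contDiffOn_chart (H : Factor U u) (δ : ℝ) : ContDiffOn ℝ 1 (chart u δ) U :=
  (contDiff_id.const_smul δ).contDiffOn.sub
    (((toVec n).contDiff.comp_contDiffOn (contDiffOn_fderiv H)).const_smul ((n : ℝ) - 1))

lemma hasFDerivAt_chart (H : Factor U u) (δ : ℝ) {x : Coord n} (hx : x ∈ U) :
    HasFDerivAt (chart u δ) (δ • ContinuousLinearMap.id ℝ (Coord n) -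
      ((n : ℝ) - 1) • (toVec n).comp (fderiv ℝ (fderiv ℝ u) x)) x :=
  ((hasFDerivAt_id x).const_smul δ).sub (((toVec n).hasFDerivAt.comp x
    (((contDiffOn_fderiv H).differentiableOn one_ne_zero).differentiableAt
      (H.isOpen.mem_nhds hx)).hasFDerivAt).const_smul ((n : ℝ) - 1))

lemma inner_fderiv_chart (H : Factor U u) (δ : ℝ) {x : Coord n} (hx : x ∈ U) (z w : Coord n) :
    ⟪fderiv ℝ (chart u δ) x z, w⟫ =
      δ * ⟪z, w⟫ - ((n : ℝ) - 1) * fderiv ℝ (fderiv ℝ u) x z w := by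
  simp [(hasFDerivAt_chart H δ hx).fderiv, inner_sub_left, inner_smul_left, inner_toVec]

/-- The weighted Jacobian. -/
noncomputable def jac (u : Coord n → ℝ) (δ : ℝ) (x : Coord n) : Coord n →L[ℝ] Coord n :=
  u x • fderiv ℝ (chart u δ) x

lemma jac_props (hn : 1 ≤ n) (H : Factor U u) {δ : ℝ} (hδ : 0 < δ) {x : Coord n} (hx : x ∈ U) :
    (∀ z w, ⟪jac u δ x z, w⟫ = ⟪jac u δ x w, z⟫) ∧
    (∀ z, z ≠ 0 → 0 < ⟪jac u δ x z, z⟫) := by
  have hs : IsSymmSndFDerivAt ℝ u x :=
    (H.smooth.contDiffAt (H.isOpen.mem_nhds hx)).isSymmSndFDerivAt (by simp)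
  constructor
  · intro z w
    simp only [jac, ContinuousLinearMap.smul_apply, inner_smul_left, RCLike.conj_to_real,
      inner_fderiv_chart H δ hx, real_inner_comm w z, hs.eq z w]
  · intro z hz
    simp only [jac, ContinuousLinearMap.smul_apply, inner_smul_left, RCLike.conj_to_real,
      inner_fderiv_chart H δ hx]
    have h1 : 0 < δ * ⟪z, z⟫ := mul_pos hδ (real_inner_self_pos.2 hz)
    have h2 := mul_nonpos_iff.2 (Or.inl ⟨(sub_nonneg.2 (Nat.one_le_cast.2 hn) :
      (0:ℝ) ≤ (n : ℝ) - 1), H.concave x hx z⟩)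
    exact mul_pos (H.pos x hx) (by linarith)

lemma det_jac (hn : 1 ≤ n) (H : Factor U u) {δ : ℝ} (hδ : 0 < δ) {x : Coord n} (hx : x ∈ U) :
    0 < LinearMap.det (jac u δ x).toLinearMap ∧
    |(fderiv ℝ (chart u δ) x).det| = LinearMap.det (jac u δ x).toLinearMap * wt U u x := by
  obtain ⟨hs, hp⟩ := jac_props hn H hδ hx
  have hJ := (trace_det_map hn (ContinuousLinearMap.id ℝ (Coord n)) (jac u δ x)
    (by simpa using LinearMap.IsPositive.id) hs hp).2.2.1
  refine ⟨hJ, ?_⟩
  have e : LinearMap.det (jac u δ x).toLinearMap =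
      u x ^ n * (fderiv ℝ (chart u δ) x).det := by
    rw [jac, ContinuousLinearMap.toLinearMap_smul, LinearMap.det_smul,
      finrank_euclideanSpace_fin]
  rw [e] at hJ ⊢
  have hu := pow_pos (H.pos x hx) n
  rw [abs_of_pos (pos_of_mul_pos_right hJ hu.le), wt, indicator_of_mem hx]
  field_simp

lemma det_chart_ne (hn : 1 ≤ n) (H : Factor U u) {δ : ℝ} (hδ : 0 < δ) {x : Coord n} (hx : x ∈ U) :
    (fderiv ℝ (chart u δ) x).det ≠ 0 := by
  obtain ⟨h1, h2⟩ := det_jac hn H hδ hx
  intro h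
  rw [h, abs_zero] at h2
  exact (mul_pos h1 (wt_pos H.pos hx)).ne h2

/-- The preimage of a null set under a local diffeomorphism of an open set is null. -/
lemma null_preimage_on (hU : IsOpen U) {g : Coord n → Coord n} (hg : ContDiffOn ℝ 1 g U)
    (hdet : ∀ x ∈ U, (fderiv ℝ g x).det ≠ 0) {S : Set (Coord n)}
    (hS : volume S = 0) : volume (U ∩ g ⁻¹' S) = 0 := by
  obtain ⟨S', hSS, hS'm, hS'0⟩ := exists_measurable_superset_of_null hS
  refine measure_mono_null (inter_subset_inter_right U (preimage_mono hSS)) ?_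
  refine measure_null_of_locally_null _ fun x hx => ?_
  let e := (fderiv ℝ g x).toLinearMap.equivOfDetNeZero (hdet x hx.1) |>.toContinuousLinearEquiv
  have h : HasStrictFDerivAt g (e : Coord n →L[ℝ] Coord n) x :=
    (hg.contDiffAt (hU.mem_nhds hx.1)).hasStrictFDerivAt one_ne_zero
  set P := h.toOpenPartialHomeomorph g
  have hV : IsOpen (P.source ∩ U) := P.open_source.inter hU
  have hxV : x ∈ P.source ∩ U := ⟨h.mem_toOpenPartialHomeomorph_source, hx.1⟩
  refine ⟨(P.source ∩ U) ∩ g ⁻¹' S', ?_, ?_⟩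
  · exact mem_of_superset (inter_mem_nhdsWithin _ (hV.mem_nhds hxV))
      fun y hy => ⟨hy.2, hy.1.2⟩
  have hgc : ContinuousOn g (P.source ∩ U) := hg.continuousOn.mono inter_subset_right
  have hm : MeasurableSet ((P.source ∩ U) ∩ g ⁻¹' S') := by
    rw [← Subtype.image_preimage_coe]
    exact hV.measurableSet.subtype_image (hgc.restrict.measurable hS'm)
  have hd : ∀ y ∈ P.source ∩ U, HasFDerivAt g (fderiv ℝ g y) y := fun y hy =>
    ((hg.differentiableOn one_ne_zero).differentiableAt (hU.mem_nhds hy.2)).hasFDerivAt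
  have hI := lintegral_abs_det_fderiv_eq_addHaar_image (μ := (volume : Measure (Coord n))) hm
    (fun y hy => (hd y hy.1).hasFDerivWithinAt)
    (P.injOn.mono (inter_subset_left.trans inter_subset_left))
  have h0 : volume (g '' ((P.source ∩ U) ∩ g ⁻¹' S')) = 0 :=
    measure_mono_null (by rintro y ⟨z, hz, rfl⟩; exact hz.2) hS'0
  rw [h0] at hI
  have hae : AEMeasurable (fun y => ENNReal.ofReal |(fderiv ℝ g y).det|)
      (volume.restrict ((P.source ∩ U) ∩ g ⁻¹' S')) :=
    (((ContinuousLinearMap.continuous_det.comp_continuousOn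
      ((continuousOn_fderiv' hU hg).mono inter_subset_right)).abs.mono
        inter_subset_left).aemeasurable hm).ennreal_ofReal
  rw [lintegral_eq_zero_iff' hae] at hI
  rw [← Measure.restrict_apply_univ]
  refine measure_mono_null (t := {y | ENNReal.ofReal |(fderiv ℝ g y).det| ≠ 0} ∪
    ((P.source ∩ U) ∩ g ⁻¹' S')ᶜ) (fun y _ => ?_) (measure_union_null (ae_iff.1 hI) ?_)
  · by_cases hy : y ∈ (P.source ∩ U) ∩ g ⁻¹' S'
    · exact Or.inl (ENNReal.ofReal_pos.2 (abs_pos.2 (hdet y hy.1.2))).ne'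
    · exact Or.inr hy
  · rw [Measure.restrict_apply hm.compl, compl_inter_self, measure_empty]

/-- The transported measure dominates the density at every point of an open set. -/
lemma density_le (hU : IsOpen U) {Φ : Coord n → Coord n} (hΦ : ContDiffOn ℝ 1 Φ U)
    {S : Set (Coord n)} (hS : IsOpen S) (hSU : S ⊆ U) {q : Coord n → ℝ} (hq : ContinuousOn q U)
    {ν : Measure (Coord n)}
    (hν : ∀ B, MeasurableSet B → ∫⁻ x in S ∩ Φ ⁻¹' B, ENNReal.ofReal (q x) ≤ ν B)
    {x : Coord n} (hx : x ∈ S) (hdet : (fderiv ℝ Φ x).det ≠ 0) {θ : ℝ} (hθ0 : 0 ≤ θ)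
    (hθ : θ * |(fderiv ℝ Φ x).det| < q x) :
    ∀ᶠ r in 𝓝[>] (0 : ℝ), ENNReal.ofReal θ * volume (ball (Φ x) r) ≤ ν (ball (Φ x) r) := by
  let ee := (fderiv ℝ Φ x).toLinearMap.equivOfDetNeZero hdet |>.toContinuousLinearEquiv
  have hst : HasStrictFDerivAt Φ (ee : Coord n →L[ℝ] Coord n) x :=
    (hΦ.contDiffAt (hU.mem_nhds (hSU hx))).hasStrictFDerivAt one_ne_zero
  let e := hst.toOpenPartialHomeomorph Φ
  have hcont : ContinuousOn (fun z => q z - θ * |(fderiv ℝ Φ z).det|) S :=
    ((hq.sub (continuousOn_const.mul (ContinuousLinearMap.continuous_det.comp_continuousOn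
      (continuousOn_fderiv' hU hΦ)).abs)).mono hSU)
  let V := e.source ∩ (S ∩ (fun z => q z - θ * |(fderiv ℝ Φ z).det|) ⁻¹' Ioi 0)
  have hV : IsOpen V := e.open_source.inter (hcont.isOpen_inter_preimage hS isOpen_Ioi)
  have hxV : x ∈ V := ⟨hst.mem_toOpenPartialHomeomorph_source, hx, sub_pos.2 hθ⟩
  have himg : IsOpen (Φ '' V) := e.isOpen_image_of_subset_source hV inter_subset_left
  obtain ⟨r0, hr0, hball⟩ := Metric.isOpen_iff.1 himg (Φ x) ⟨x, hxV, rfl⟩
  filter_upwards [Ioo_mem_nhdsGT hr0] with r hr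
  let W := V ∩ Φ ⁻¹' ball (Φ x) r
  have hVU : V ⊆ U := fun z hz => hSU hz.2.1
  have hW : MeasurableSet W :=
    ((hΦ.continuousOn.mono hVU).isOpen_inter_preimage hV isOpen_ball).measurableSet
  have hWimg : Φ '' W = ball (Φ x) r := by
    rw [image_inter_preimage]
    exact inter_eq_right.2 ((ball_subset_ball hr.2.le).trans hball)
  have hcv := lintegral_abs_det_fderiv_eq_addHaar_image (μ := (volume : Measure (Coord n))) hW
    (fun z hz => ((hΦ.differentiableOn one_ne_zero).differentiableAt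
      (hU.mem_nhds (hVU hz.1))).hasFDerivAt.hasFDerivWithinAt)
    ((e.injOn).mono (inter_subset_left.trans inter_subset_left))
  rw [← hWimg, ← hcv, ← lintegral_const_mul' _ _ ENNReal.ofReal_ne_top, hWimg]
  refine le_trans ?_ (hν _ measurableSet_ball)
  refine le_trans ?_ (lintegral_mono_set (fun z hz => ⟨hz.1.2.1, hz.2⟩ : W ⊆ S ∩ Φ ⁻¹' _))
  refine setLIntegral_mono' hW fun z hz => ?_
  rw [← ENNReal.ofReal_mul hθ0]
  have hzz : 0 < q z - θ * |(fderiv ℝ Φ z).det| := hz.1.2.2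
  exact ENNReal.ofReal_le_ofReal (by linarith)

end Vale.Agent.P219.Conformal
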