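import Mathlib
import Vale.Agent.P219.LinAlg
import Vale.Agent.P219.Conformal.Flux
import Vale.Agent.P219.Conformal.Chart
import Vale.Agent.P219.Conformal.Centred

/-!
P219 (conformal part): the isoperimetric bound for an open set approximated by cut-off functions.
-/

open MeasureTheory Metric Set Filter Topology
open scoped RealInnerProductSpace ENNReal

namespace Vale.Agent.P219.Conformal

variable {n : ℕ} {U : Set (Coord n)} {u : Coord n → ℝ}

/-- The density of the divergence of a field given in the frame `u ∂_i`. -/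
noncomputable def divDens (U : Set (Coord n)) (u : Coord n → ℝ) (Y : Coord n → Coord n)
    (x : Coord n) : ℝ :=
  (u x * (∑ i, fderiv ℝ Y x (EuclideanSpace.single i 1) i)
    - ((n : ℝ) - 1) * fderiv ℝ u x (Y x)) * wt U u x

/-- The cut-off functions pass to the limit in the flux bound. -/
lemma flux_set (hn : 1 ≤ n) (H : Factor U u) {K : Set (Coord n)} (hK : IsCompact K) (hKU : K ⊆ U)
    {S : Set (Coord n)} {v : ℕ → Coord n → ℝ} (hv : ∀ j, ContDiff ℝ 1 (v j))
    (hv01 : ∀ j x, v j x ∈ Icc (0:ℝ) 1) (hvK : ∀ j, ∀ x ∉ K, v j x = 0)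
    (hlim : ∀ x, Tendsto (fun j => v j x) atTop (𝓝 (S.indicator (fun _ => (1:ℝ)) x)))
    {Z : ℝ} (hP : ∃ᶠ j in atTop, ∫ x, gradDens U u (v j) x ≤ Z)
    {Y : Coord n → Coord n} (hY : ContDiffOn ℝ 1 Y U) (hY1 : ∀ x ∈ U, ‖Y x‖ ≤ 1) :
    ∫ x, S.indicator (fun _ => (1:ℝ)) x * divDens U u Y x ≤ Z := by
  have hu1 : ContDiffOn ℝ 1 u U := H.smooth.of_le (by norm_num)
  have hvc : ∀ j, HasCompactSupport (v j) := fun j => HasCompactSupport.intro hK (hvK j)
  have hvU : ∀ j, tsupport (v j) ⊆ U := fun j => (closure_minimal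
    (fun x hx => by_contra fun h => Function.mem_support.1 hx (hvK j x h)) hK.isClosed).trans hKU
  have hDY : ContinuousOn (fun x => ∑ i, fderiv ℝ Y x ((EuclideanSpace.single i (1:ℝ) : Coord n)) i) U :=
    continuousOn_finsetSum _ fun i _ => (EuclideanSpace.proj (𝕜 := ℝ) i).continuous.comp_continuousOn
      ((continuousOn_fderiv' H.isOpen hY).clm_apply continuousOn_const)
  have hG : ContinuousOn (divDens U u Y) U :=
    ((hu1.continuousOn.mul hDY).sub (continuousOn_const.mul
      ((continuousOn_fderiv' H.isOpen hu1).clm_apply hY.continuousOn))).mul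
      (continuousOn_wt hu1.continuousOn H.pos)
  have hbound : Integrable (K.indicator fun x => ‖divDens U u Y x‖) :=
    (integrable_indicator_iff hK.isClosed.measurableSet).2
      ((hG.mono hKU).norm.integrableOn_compact hK)
  have hi : ∀ j, Integrable fun x => v j x * divDens U u Y x := fun j =>
    integrable_of_supp H.isOpen hK hKU ((hv j).continuous.continuousOn.mul hG)
      fun x hx => by simp [hvK j x hx]
  have hT : Tendsto (fun j => ∫ x, v j x * divDens U u Y x) atTop
      (𝓝 (∫ x, S.indicator (fun _ => (1:ℝ)) x * divDens U u Y x)) := by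
    refine tendsto_integral_of_dominated_convergence (K.indicator fun x => ‖divDens U u Y x‖)
      (fun j => (hi j).1) hbound (fun j => ?_) (Eventually.of_forall fun x => (hlim x).mul_const _)
    refine Eventually.of_forall fun x => ?_
    by_cases hx : x ∈ K
    · rw [indicator_of_mem hx, norm_mul, Real.norm_of_nonneg (hv01 j x).1]
      exact mul_le_of_le_one_left (norm_nonneg _) (hv01 j x).2
    · simp [hvK j x hx, indicator_of_notMem hx]
  refine le_of_not_gt fun hlt => ?_
  obtain ⟨j, hj1, hj2⟩ := ((hT.eventually (lt_mem_nhds hlt)).and_frequently hP).exists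
  have := flux_le hn H.isOpen hu1 H.pos (hv j) (hvc j) (hvU j) hY hY1
  simp only [divDens, ← mul_assoc] at hj1
  linarith

/-- Fatou's lemma in the form used below. -/
lemma fatou_le {low L : Coord n → ℝ} {a : ℕ → Coord n → ℝ} {Z : ℝ}
    (hlowi : Integrable low) (hlow0 : ∀ x, 0 ≤ low x) (hai : ∀ k, Integrable (a k))
    (ha0 : ∀ k x, 0 ≤ a k x) (hle : ∀ᵐ x, low x ≤ L x)
    (hlim : ∀ᵐ x, Tendsto (fun k => a k x) atTop (𝓝 (L x)))
    (hev : ∀ᶠ k in atTop, ∫ x, a k x ≤ Z) : ∫ x, low x ≤ Z := by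
  obtain ⟨k0, hk0⟩ := hev.exists
  have hZ0 : 0 ≤ Z := (integral_nonneg (ha0 k0)).trans hk0
  refine (ENNReal.ofReal_le_ofReal_iff hZ0).1 ?_
  rw [ofReal_integral_eq_lintegral_ofReal hlowi (Eventually.of_forall hlow0)]
  calc ∫⁻ x, ENNReal.ofReal (low x)
      ≤ ∫⁻ x, liminf (fun k => ENNReal.ofReal (a k x)) atTop := by
        refine lintegral_mono_ae ?_
        filter_upwards [hle, hlim] with x h1 h2
        rw [(ENNReal.tendsto_ofReal h2).liminf_eq]
        exact ENNReal.ofReal_le_ofReal h1
    _ ≤ liminf (fun k => ∫⁻ x, ENNReal.ofReal (a k x)) atTop :=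
        lintegral_liminf_le' fun k => (hai k).1.aemeasurable.ennreal_ofReal
    _ ≤ ENNReal.ofReal Z := by
        refine liminf_le_of_frequently_le' (Eventually.frequently ?_)
        filter_upwards [hev] with k hk
        rw [← ofReal_integral_eq_lintegral_ofReal (hai k) (Eventually.of_forall (ha0 k))]
        exact ENNReal.ofReal_le_ofReal hk

/-- The bound with error terms. -/
theorem level_approx (hn : 2 ≤ n) (H : Factor U u) {K : Set (Coord n)} (hK : IsCompact K)
    (hKU : K ⊆ U) {S : Set (Coord n)} (hS : IsOpen S) (hSK : S ⊆ K)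
    (hm : 0 < ∫ x in S, wt U u x) {v : ℕ → Coord n → ℝ} (hv : ∀ j, ContDiff ℝ 1 (v j))
    (hv01 : ∀ j x, v j x ∈ Icc (0:ℝ) 1) (hvK : ∀ j, ∀ x ∉ K, v j x = 0)
    (hlim : ∀ x, Tendsto (fun j => v j x) atTop (𝓝 (S.indicator (fun _ => (1:ℝ)) x)))
    {Z : ℝ} (hP : ∃ᶠ j in atTop, ∫ x, gradDens U u (v j) x ≤ Z)
    {M R : ℝ} (hM : ∀ x ∈ K, ‖toVec n (fderiv ℝ u x)‖ ≤ M) (hR : ∀ x ∈ K, ‖x‖ ≤ R)
    {δ η : ℝ} (hδ : 0 < δ) (hη : 0 < η) (hη1 : η < 1) :
    (n : ℝ) * ((volume (ball (0 : Coord n) 1)).toReal / (∫ x in S, wt U u x) / (1 + η))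
          ^ ((1:ℝ) / n) * (∫ x in S, wt U u x) ≤
      Z + (η * (δ * R + ((n : ℝ) - 1) * M) + δ * R) * (∫ x in S, wt U u x) := by
  have hn1 : 1 ≤ n := by omega
  have hn1' : (1 : ℝ) ≤ n := by exact_mod_cast hn1
  have hSU : S ⊆ U := hSK.trans hKU
  have hu1 : ContDiffOn ℝ 1 u U := H.smooth.of_le (by norm_num)
  have hwc := continuousOn_wt hu1.continuousOn H.pos
  set m := ∫ x in S, wt U u x with hmdef
  set ω := (volume (ball (0 : Coord n) 1)).toReal with hω
  have hω0 : 0 < ω := ENNReal.toReal_pos (measure_ball_pos _ _ one_pos).ne' measure_ball_lt_top.ne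
  set c := ω / m with hc
  have hc0 : 0 < c := div_pos hω0 hm
  set Φ := chart u δ with hΦdef
  have hΦ : ContDiffOn ℝ 1 Φ U := contDiffOn_chart H δ
  set L := δ * R + ((n : ℝ) - 1) * M
  have hL : ∀ x ∈ K, ‖Φ x‖ ≤ L := fun x hx => by
    refine (norm_sub_le _ _).trans (add_le_add ?_ ?_) <;>
      rw [norm_smul, Real.norm_of_nonneg (by linarith)]
    · exact mul_le_mul_of_nonneg_left (hR x hx) hδ.le
    · exact mul_le_mul_of_nonneg_left (hM x hx) (by linarith)
  -- a continuous extension of the chart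
  obtain ⟨K', hK', hKK', hK'U⟩ := exists_compact_between hK H.isOpen hKU
  obtain ⟨χ, hχ0, hχ1, -⟩ := exists_continuous_zero_one_of_isClosed
    (isOpen_interior.isClosed_compl) hK.isClosed (disjoint_compl_left_iff_subset.2 hKK')
  let g : Coord n → Coord n := fun x => χ x • Φ x
  have hg : Continuous g := continuous_of_supp H.isOpen hK' hK'U
    (χ.continuous.continuousOn.smul hΦ.continuousOn) fun x hx => by
      simp [g, hχ0 (show x ∈ (interior K')ᶜ from fun h => hx (interior_subset h))]
  have hgS : ∀ x ∈ K, g x = Φ x := fun x hx => by simp [g, hχ1 hx]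
  let q : Coord n → ℝ := fun x => c * wt U u x
  let dens : Coord n → ℝ≥0∞ := S.indicator fun x => ENNReal.ofReal (q x)
  let μ : Measure (Coord n) := volume.withDensity dens
  have hwi : IntegrableOn (wt U u) S := ((hwc.mono hKU).integrableOn_compact hK).mono_set hSK
  have hμS : ∀ B, MeasurableSet B → μ B = ∫⁻ x in S ∩ B, ENNReal.ofReal (q x) := fun B hB => by
    rw [withDensity_apply _ hB, lintegral_indicator hS.measurableSet,
      Measure.restrict_restrict hS.measurableSet]
  have hmass : μ univ = volume (ball (0 : Coord n) 1) := by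
    rw [hμS _ MeasurableSet.univ, inter_univ, ← ofReal_integral_eq_lintegral_ofReal
      (hwi.const_mul c) (Eventually.of_forall fun x => mul_nonneg hc0.le (wt_nonneg H.pos x)),
      integral_const_mul, ← hmdef, hc, div_mul_cancel₀ _ hm.ne', hω,
      ENNReal.ofReal_toReal measure_ball_lt_top.ne]
  have : IsFiniteMeasure μ := ⟨by rw [hmass]; exact measure_ball_lt_top⟩
  have hμK : μ Kᶜ = 0 := by
    rw [hμS _ hK.isClosed.measurableSet.compl, show S ∩ Kᶜ = ∅ by
      ext x; simpa using fun h => hSK h]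
    simp
  have pullS : ∀ {P : Coord n → Prop}, (∀ᵐ y, P y) → ∀ᵐ x, x ∈ S → P (Φ x) := by
    intro P h
    rw [ae_iff] at h ⊢
    refine measure_mono_null (fun x hx => ?_)
      (null_preimage_on H.isOpen hΦ (fun x hx => det_chart_ne hn1 H hδ hx) h)
    simp only [mem_ofPred_eq, Classical.not_imp] at hx
    exact ⟨hSU hx.1, hx.2⟩
  have hac : μ.map g ≪ volume := by
    refine Measure.AbsolutelyContinuous.mk fun B hB hB0 => ?_
    rw [Measure.map_apply hg.measurable hB, hμS _ (hg.measurable hB)]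
    refine setLIntegral_measure_zero _ _ ?_
    refine measure_mono_null (fun x hx => ?_)
      (null_preimage_on H.isOpen hΦ (fun x hx => det_chart_ne hn1 H hδ hx) hB0)
    exact ⟨hSU hx.1, by simpa [mem_preimage, hgS x (hSK hx.1)] using hx.2⟩
  have hgK : ∀ x ∈ K, ‖g x‖ ≤ L := fun x hx => by rw [hgS x hx]; exact hL x hx
  obtain ⟨T, A, Tk, hTk1, hTk2, hTkP, hTm, hT1, hmom, hTlim, hAlim, hden⟩ :=
    transport_centred μ K hK hμK hmass g hg hac hgK η hη hη1
  let χS : Coord n → ℝ := S.indicator fun _ => (1:ℝ)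
  let tr : ℕ → Coord n → ℝ := fun k x =>
    ∑ i, ⟪(EuclideanSpace.single i (1:ℝ) : Coord n), fderiv ℝ (Tk k) (Φ x) (jac u δ x ((EuclideanSpace.single i (1:ℝ) : Coord n)))⟫
  let zo : ℕ → Coord n → ℝ := fun k x => ⟪Φ x - δ • x, Tk k (Φ x)⟫
  have hdiv : ∀ k, ∀ x ∈ U, divDens U u (fun y => Tk k (Φ y)) x =
      (tr k x + zo k x) * wt U u x := by
    intro k x hx
    have hd : fderiv ℝ (fun y => Tk k (Φ y)) x =
        (fderiv ℝ (Tk k) (Φ x)).comp (fderiv ℝ Φ x) :=
      ((((hTk1 k).differentiable one_ne_zero) _).hasFDerivAt.comp x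
        ((hΦ.differentiableOn one_ne_zero).differentiableAt
          (H.isOpen.mem_nhds hx)).hasFDerivAt).fderiv
    have hzo : zo k x = -((n : ℝ) - 1) * fderiv ℝ u x (Tk k (Φ x)) := by
      simp [zo, hΦdef, chart, inner_neg_left, inner_smul_left, inner_toVec]
      ring
    simp only [divDens, tr, hzo, jac, hd, ← hΦdef]
    simp [EuclideanSpace.inner_single_left, Finset.mul_sum, inner_smul_right]
    exact Or.inl (by ring)
  have hΦc : ContinuousOn Φ U := hΦ.continuousOn
  have hintS : ∀ {F : Coord n → ℝ}, ContinuousOn F U →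
      Integrable fun x => χS x * F x := by
    intro F hF
    have : (fun x => χS x * F x) = S.indicator F := by
      ext x; by_cases hx : x ∈ S <;> simp [χS, hx]
    rw [this, integrable_indicator_iff hS.measurableSet]
    exact ((hF.mono hKU).integrableOn_compact hK).mono_set hSK
  have htrc : ∀ k, ContinuousOn (fun x => tr k x * wt U u x) U := fun k =>
    (continuousOn_finsetSum _ fun i _ => continuousOn_const.inner
      ((((hTk1 k).continuous_fderiv one_ne_zero).comp_continuousOn hΦc).clm_apply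
        ((hu1.continuousOn.smul (continuousOn_fderiv' H.isOpen hΦ)).clm_apply
          continuousOn_const))).mul hwc
  have hzoc : ∀ k, ContinuousOn (fun x => zo k x * wt U u x) U := fun k =>
    ((hΦc.sub (continuousOn_id.const_smul δ)).inner
      ((hTk1 k).continuous.comp_continuousOn hΦc)).mul hwc
  let a1 : ℕ → Coord n → ℝ := fun k x => χS x * (tr k x * wt U u x)
  let a2 : ℕ → Coord n → ℝ := fun k x => χS x * (zo k x * wt U u x)
  have ha1 : ∀ k, Integrable (a1 k) := fun k => hintS (htrc k)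
  have ha2 : ∀ k, Integrable (a2 k) := fun k => hintS (hzoc k)
  have htr : ∀ k, ∀ x ∈ U, 0 ≤ tr k x := fun k x hx => by
    obtain ⟨hs, hp⟩ := jac_props hn1 H hδ hx
    exact (trace_det_map hn1 _ _ (hTkP k (Φ x)) hs hp).1
  have ha10 : ∀ k x, 0 ≤ a1 k x := fun k x => by
    by_cases hx : x ∈ S
    · simp only [a1, χS, indicator_of_mem hx, one_mul]
      exact mul_nonneg (htr k x (hSU hx)) (wt_nonneg H.pos x)
    · simp [a1, χS, indicator_of_notMem hx]
  have hmain : ∀ k, (∫ x, a1 k x) + ∫ x, a2 k x ≤ Z := by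
    intro k
    have h := flux_set hn1 H hK hKU hv hv01 hvK hlim hP
      (Y := fun y => Tk k (Φ y)) ((hTk1 k).comp_contDiffOn hΦ) (fun x _ => hTk2 k _)
    rw [← integral_add (ha1 k) (ha2 k)]
    refine le_of_eq_of_le (integral_congr_ae (Eventually.of_forall fun x => ?_)) h
    by_cases hx : x ∈ S
    · simp [a1, a2, χS, indicator_of_mem hx, hdiv k x (hSU hx)]; ring
    · simp [a1, a2, χS, indicator_of_notMem hx]
  -- the limit of the zero order term
  let lim2 : Coord n → ℝ := fun x => χS x * (⟪g x - δ • x, T (g x)⟫ * wt U u x)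
  have hbd : Integrable fun x => χS x * ((L + δ * R) * wt U u x) :=
    hintS (continuousOn_const.mul hwc)
  have hdom : ∀ (y : Coord n), ‖y‖ ≤ 1 → ∀ x,
      ‖χS x * (⟪g x - δ • x, y⟫ * wt U u x)‖ ≤ χS x * ((L + δ * R) * wt U u x) := by
    intro y hy x
    by_cases hx : x ∈ S
    · simp only [χS, indicator_of_mem hx, one_mul, norm_mul,
        Real.norm_of_nonneg (wt_nonneg H.pos x)]
      refine mul_le_mul_of_nonneg_right ((norm_inner_le_norm _ _).trans
        ((mul_le_of_le_one_right (norm_nonneg _) hy).trans ((norm_sub_le _ _).trans ?_)))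
        (wt_nonneg H.pos x)
      refine add_le_add (hgK x (hSK hx)) ?_
      rw [norm_smul, Real.norm_of_nonneg hδ.le]
      exact mul_le_mul_of_nonneg_left (hR x (hSK hx)) hδ.le
    · simp [χS, indicator_of_notMem hx]
  have hTlimS := pullS hTlim
  have ha2eq : ∀ k x, a2 k x = χS x * (⟪g x - δ • x, Tk k (Φ x)⟫ * wt U u x) := fun k x => by
    by_cases hx : x ∈ S
    · simp [a2, zo, hgS x (hSK hx)]
    · simp [a2, χS, indicator_of_notMem hx]
  have hpt : ∀ᵐ x, Tendsto (fun k => a2 k x) atTop (𝓝 (lim2 x)) := by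
    filter_upwards [hTlimS] with x hx
    by_cases hxS : x ∈ S
    · have h := hx hxS
      simp only [ha2eq, lim2, hgS x (hSK hxS)]
      exact (((tendsto_const_nhds.inner h).mul_const _).const_mul _)
    · simp [a2, lim2, χS, indicator_of_notMem hxS]
  have hl2 : Tendsto (fun k => ∫ x, a2 k x) atTop (𝓝 (∫ x, lim2 x)) :=
    tendsto_integral_of_dominated_convergence _ (fun k => (ha2 k).1) hbd
      (fun k => Eventually.of_forall fun x => by rw [ha2eq]; exact hdom _ (hTk2 k _) x) hpt
  have hl2i : Integrable lim2 :=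
    hbd.mono' (aestronglyMeasurable_of_tendsto_ae atTop (fun k => (ha2 k).1) hpt)
      (Eventually.of_forall fun x => hdom _ (hT1 _) x)
  have hlow2 : -((η * L + δ * R) * m) ≤ ∫ x, lim2 x := by
    have hdm : Measurable dens := by
      have hq : ContinuousOn q S := (continuousOn_const.mul hwc).mono hSU
      classical
      have e : dens = fun x => ENNReal.ofReal (S.piecewise q (fun _ => 0) x) := by
        ext x; by_cases hx : x ∈ S <;> simp [dens, hx]
      rw [e]
      exact (hq.measurable_piecewise continuousOn_const hS.measurableSet).ennreal_ofReal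
    have hdt : ∀ᵐ x, dens x < ∞ := Eventually.of_forall fun x => by
      by_cases hx : x ∈ S <;> simp [dens, hx]
    rw [integral_withDensity_eq_integral_toReal_smul hdm hdt] at hmom
    have e1 : ∀ x, (dens x).toReal • ⟪T (g x), g x⟫ =
        c * (lim2 x + χS x * (δ * ⟪x, T (g x)⟫ * wt U u x)) := fun x => by
      by_cases hx : x ∈ S
      · simp [dens, lim2, χS, hx, q, ENNReal.toReal_ofReal (mul_nonneg hc0.le (wt_nonneg H.pos x)),
          inner_sub_left, inner_smul_left, real_inner_comm (g x) (T (g x))]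
        ring
      · simp [dens, lim2, χS, hx]
    have hR' : ∀ x, χS x * (δ * ⟪x, T (g x)⟫ * wt U u x) ≤ χS x * (δ * R * wt U u x) := fun x => by
      by_cases hx : x ∈ S
      · simp only [χS, indicator_of_mem hx, one_mul]
        refine mul_le_mul_of_nonneg_right (mul_le_mul_of_nonneg_left ?_ hδ.le) (wt_nonneg H.pos x)
        exact (real_inner_le_norm _ _).trans ((mul_le_of_le_one_right (norm_nonneg _) (hT1 _)).trans
          (hR x (hSK hx)))
      · simp [χS, indicator_of_notMem hx]
    have hi2 : Integrable fun x => χS x * (δ * R * wt U u x) := hintS (continuousOn_const.mul hwc)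
    have hle : ∀ x, (dens x).toReal • ⟪T (g x), g x⟫ ≤
        c * (lim2 x + χS x * (δ * R * wt U u x)) := fun x => by
      rw [e1]; exact mul_le_mul_of_nonneg_left (by linarith [hR' x]) hc0.le
    have hI : ∫ x, (dens x).toReal • ⟪T (g x), g x⟫ ≤
        c * ((∫ x, lim2 x) + δ * R * m) := by
      have hcm : ∫ x, χS x * (δ * R * wt U u x) = δ * R * m := by
        rw [hmdef, ← integral_const_mul, ← integral_indicator hS.measurableSet]
        congr 1
        ext x
        by_cases hx : x ∈ S <;> simp [χS, hx]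
      rw [← hcm, ← integral_add hl2i hi2, ← integral_const_mul]
      refine integral_mono ?_ ((hl2i.add hi2).const_mul c) hle
      rw [← integrable_withDensity_iff_integrable_smul' hdm hdt]
      exact Integrable.of_bound ((hTm.comp hg.measurable).aestronglyMeasurable.inner
        hg.aestronglyMeasurable) L (Eventually.mono (mem_ae_iff.2 hμK) fun x hx =>
          (norm_inner_le_norm _ _).trans
            ((mul_le_of_le_one_left (norm_nonneg _) (hT1 _)).trans (hgK x hx)))
    have hcω : ω = c * m := by rw [hc]; field_simp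
    rw [← hω, hcω] at hmom
    nlinarith
  -- the trace term
  have hAlimS := pullS hAlim
  have hdenS := pullS hden
  set lowc := (n : ℝ) * (c / (1 + η)) ^ ((1:ℝ) / n) with hlowc
  let low : Coord n → ℝ := fun x => χS x * (lowc * wt U u x)
  let L1 : Coord n → ℝ := fun x =>
    χS x * ((∑ i, ⟪(EuclideanSpace.single i (1:ℝ) : Coord n), A (Φ x) (jac u δ x ((EuclideanSpace.single i (1:ℝ) : Coord n)))⟫) * wt U u x)
  have hlowc0 : 0 ≤ lowc := mul_nonneg (Nat.cast_nonneg n)
    (Real.rpow_nonneg (div_nonneg hc0.le (by linarith)) _)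
  have hlow0 : ∀ x, 0 ≤ low x := fun x => mul_nonneg
    (indicator_nonneg (fun _ _ => zero_le_one) x) (mul_nonneg hlowc0 (wt_nonneg H.pos x))
  have hle : ∀ᵐ x, low x ≤ L1 x := by
    filter_upwards [hAlimS, hdenS] with x hA' hd'
    by_cases hx : x ∈ S
    swap; · simp [low, L1, χS, indicator_of_notMem hx]
    have hA := hA' hx
    have hxU := hSU hx
    simp only [low, L1, χS, indicator_of_mem hx, one_mul]
    refine mul_le_mul_of_nonneg_right ?_ (wt_nonneg H.pos x)
    have hev : ∀ z : Coord n, Tendsto (fun k => fderiv ℝ (Tk k) (Φ x) z) atTop (𝓝 (A (Φ x) z)) :=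
      fun z => ((ContinuousLinearMap.apply ℝ (Coord n) z).continuous.tendsto _).comp hA
    have hApos : (A (Φ x)).toLinearMap.IsPositive := by
      refine ⟨fun z w => ?_, fun z => ?_⟩
      · refine tendsto_nhds_unique ((hev z).inner tendsto_const_nhds)
          (((tendsto_const_nhds (x := z)).inner (hev w)).congr fun k => ?_)
        exact ((hTkP k _).isSymmetric z w).symm
      · refine ge_of_tendsto' ((hev z).inner (tendsto_const_nhds (x := z))) fun k => ?_
        simpa using (hTkP k (Φ x)).re_inner_nonneg_left z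
    obtain ⟨hs, hp⟩ := jac_props hn1 H hδ hxU
    obtain ⟨-, hdA, hdJ, hineq⟩ := trace_det_map hn1 (A (Φ x)) (jac u δ x) hApos hs hp
    obtain ⟨-, hdet⟩ := det_jac hn1 H hδ hxU
    have hwx := wt_pos H.pos hxU
    have hkey : c / LinearMap.det (jac u δ x).toLinearMap ≤
        (1 + η) * LinearMap.det (A (Φ x)).toLinearMap := by
      refine le_of_forall_lt_imp_le_of_dense fun θ hθ => ?_
      rcases lt_or_ge θ 0 with hneg | hθ0
      · exact hneg.le.trans (mul_nonneg (by linarith) hdA)
      refine hd' hx θ hθ0 (density_le H.isOpen hΦ hS hSU (q := q) (continuousOn_const.mul hwc)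
        (fun B hB => le_of_eq ?_) hx (det_chart_ne hn1 H hδ hxU) hθ0 ?_)
      · rw [Measure.map_apply hg.measurable hB, hμS _ (hg.measurable hB)]
        congr 2
        ext y
        simp only [mem_inter_iff, mem_preimage]
        exact ⟨fun h => ⟨h.1, by rw [hgS y (hSK h.1)]; exact h.2⟩,
          fun h => ⟨h.1, by rw [← hgS y (hSK h.1)]; exact h.2⟩⟩
      · rw [hdet, ← mul_assoc]
        exact mul_lt_mul_of_pos_right ((lt_div_iff₀ hdJ).1 hθ) hwx
    refine le_trans (mul_le_mul_of_nonneg_left (Real.rpow_le_rpow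
      (div_nonneg hc0.le (by linarith)) ?_ (by positivity)) (Nat.cast_nonneg n)) hineq
    rw [div_le_iff₀ (by linarith)]
    rw [div_le_iff₀ hdJ] at hkey
    linarith
  have hlim1 : ∀ᵐ x, Tendsto (fun k => a1 k x) atTop (𝓝 (L1 x)) := by
    filter_upwards [hAlimS] with x hx
    by_cases hxS : x ∈ S
    · refine ((tendsto_finsetSum _ fun i _ => tendsto_const_nhds.inner ?_).mul_const _).const_mul _
      exact ((ContinuousLinearMap.apply ℝ (Coord n) (jac u δ x ((EuclideanSpace.single i (1:ℝ) : Coord n)))).continuous.tendsto _).comp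
        (hx hxS)
    · simp [a1, L1, χS, indicator_of_notMem hxS]
  have hfin : ∀ e > 0, lowc * m ≤ Z + (η * L + δ * R) * m + e := by
    intro e he
    have hev : ∀ᶠ k in atTop, ∫ x, a1 k x ≤ Z + (η * L + δ * R) * m + e := by
      filter_upwards [hl2.eventually (lt_mem_nhds (sub_lt_self (∫ x, lim2 x) he))] with k hk
      have h0 := hmain k
      linarith
    have := fatou_le (low := low) (hintS (continuousOn_const.mul hwc)) hlow0 ha1 ha10 hle hlim1 hev
    have e2 : ∫ x, low x = lowc * m := by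
      rw [hmdef, ← integral_const_mul, ← integral_indicator hS.measurableSet]
      congr 1
      ext x
      by_cases hx : x ∈ S <;> simp [low, χS, hx]
    rwa [e2] at this
  exact le_of_forall_pos_le_add hfin

/-- The isoperimetric bound for the open set `S`. -/
theorem level_bound (hn : 2 ≤ n) (H : Factor U u) {K : Set (Coord n)} (hK : IsCompact K)
    (hKU : K ⊆ U) {S : Set (Coord n)} (hS : IsOpen S) (hSK : S ⊆ K)
    {v : ℕ → Coord n → ℝ} (hv : ∀ j, ContDiff ℝ 1 (v j))
    (hv01 : ∀ j x, v j x ∈ Icc (0:ℝ) 1) (hvK : ∀ j, ∀ x ∉ K, v j x = 0)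
    (hlim : ∀ x, Tendsto (fun j => v j x) atTop (𝓝 (S.indicator (fun _ => (1:ℝ)) x)))
    {Z : ℝ} (hP : ∃ᶠ j in atTop, ∫ x, gradDens U u (v j) x ≤ Z) :
    isoConst n * (∫ x in S, wt U u x) ^ (((n : ℝ) - 1) / n) ≤ Z := by
  have hn1 : (1 : ℝ) < n := by exact_mod_cast (show 1 < n by omega)
  have hr : 0 < ((n : ℝ) - 1) / n := div_pos (by linarith) (by linarith)
  set m := ∫ x in S, wt U u x with hmdef
  rcases (show 0 ≤ m from setIntegral_nonneg hS.measurableSet fun x _ =>
    wt_nonneg H.pos x).eq_or_lt with hm | hm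
  · obtain ⟨j, hj⟩ := hP.exists
    rw [← hm, Real.zero_rpow hr.ne', mul_zero]
    exact (integral_nonneg fun x => gradDens_nonneg H.pos (v j) x).trans hj
  obtain ⟨M, hM⟩ := hK.exists_bound_of_continuousOn
    (((toVec n).continuous.comp_continuousOn (contDiffOn_fderiv H).continuousOn).mono hKU)
  obtain ⟨R, hR⟩ := hK.isBounded.exists_norm_le
  set ω := (volume (ball (0 : Coord n) 1)).toReal with hω
  have hω0 : 0 < ω := ENNReal.toReal_pos (measure_ball_pos _ _ one_pos).ne' measure_ball_lt_top.ne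
  let s : ℕ → ℝ := fun k => 1 / ((k : ℝ) + 2)
  have hs0 : ∀ k, 0 < s k := fun k => by positivity
  have hs1 : ∀ k, s k < 1 := fun k => by
    rw [div_lt_one (by positivity)]
    have := (Nat.cast_nonneg k : (0:ℝ) ≤ k)
    linarith
  have hs : Tendsto s atTop (𝓝 0) := by
    simp only [s]
    exact tendsto_const_nhds.div_atTop
      (tendsto_atTop_add_const_right _ 2 tendsto_natCast_atTop_atTop)
  have hle := fun k => level_approx hn H hK hKU hS hSK hm hv hv01 hvK hlim hP hM hR
    (hs0 k) (hs0 k) (hs1 k)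
  have h1 : Tendsto (fun k => (n : ℝ) * (ω / m / (1 + s k)) ^ ((1:ℝ) / n) * m) atTop
      (𝓝 ((n : ℝ) * (ω / m) ^ ((1:ℝ) / n) * m)) := by
    have h0 : Tendsto (fun k => ω / m / (1 + s k)) atTop (𝓝 (ω / m / (1 + 0))) :=
      tendsto_const_nhds.div (tendsto_const_nhds.add hs) (by norm_num)
    rw [add_zero, div_one] at h0
    exact ((h0.rpow_const (Or.inl (div_pos hω0 hm).ne')).const_mul _).mul_const _
  have h2 : Tendsto (fun k => Z + (s k * (s k * R + ((n : ℝ) - 1) * M) + s k * R) * m)
      atTop (𝓝 Z) := by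
    simpa using (((hs.mul ((hs.mul_const R).add_const (((n : ℝ) - 1) * M))).add
      (hs.mul_const R)).mul_const m).const_add Z
  refine le_of_eq_of_le ?_ (le_of_tendsto_of_tendsto' h1 h2 hle)
  rw [isoConst, ← hω, Real.div_rpow hω0.le hm.le,
    show ((n : ℝ) - 1) / n = 1 - 1 / n by field_simp, Real.rpow_sub hm, Real.rpow_one]
  field_simp

end Vale.Agent.P219.Conformal
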