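import Mathlib
import Vale.Agent.P219.Conformal.Flux
import Vale.Agent.P219.Conformal.Chart
import Vale.Agent.P219.Conformal.Level

/-!
P219 (conformal part): the sharp Sobolev inequality for the metric `δ/u²` from the bounds on the
level sets.
-/

open MeasureTheory Metric Set Filter Topology
open scoped ENNReal

namespace Vale.Agent.P219.Conformal

variable {n : ℕ} {U : Set (Coord n)} {u : Coord n → ℝ}

lemma measurable_wt (H : Factor U u) : Measurable (wt U u) := by
  classical
  rw [show wt U u = U.piecewise (fun x => (u x ^ n)⁻¹) (fun _ => 0) from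
    funext fun x => by by_cases hx : x ∈ U <;> simp [wt, hx]]
  exact ((H.smooth.continuousOn.pow n).inv₀ fun x hx =>
    (pow_pos (H.pos x hx) n).ne').measurable_piecewise continuousOn_const H.isOpen.measurableSet

/-- The weighted volume. -/
noncomputable def wvol (U : Set (Coord n)) (u : Coord n → ℝ) : Measure (Coord n) :=
  volume.withDensity fun x => ENNReal.ofReal (wt U u x)

lemma wvol_apply_open (H : Factor U u) {K : Set (Coord n)} (hK : IsCompact K) (hKU : K ⊆ U)
    {S : Set (Coord n)} (hS : IsOpen S) (hSK : S ⊆ K) :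
    wvol U u S = ENNReal.ofReal (∫ x in S, wt U u x) := by
  rw [wvol, withDensity_apply _ hS.measurableSet, ofReal_integral_eq_lintegral_ofReal
    ((((continuousOn_wt H.smooth.continuousOn H.pos).mono hKU).integrableOn_compact hK).mono_set hSK)
    (Eventually.of_forall fun x => wt_nonneg H.pos x)]

lemma lintegral_bump_le (j : ℕ) (a : ℝ) :
    ∫⁻ t, ENNReal.ofReal (deriv Real.smoothTransition (((j : ℝ) + 1) * (a - t)) * ((j : ℝ) + 1))
      ≤ 1 := by
  set φ := Real.smoothTransition
  have hφ : ContDiff ℝ 1 φ := Real.smoothTransition.contDiff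
  have hc : (0 : ℝ) < (j : ℝ) + 1 := by positivity
  set c : ℝ := (j : ℝ) + 1
  let h : ℝ → ℝ := fun t => deriv φ (c * (a - t)) * c
  have hh : Continuous h := ((hφ.continuous_deriv le_rfl).comp (by fun_prop)).mul continuous_const
  have hd0 : ∀ s, 0 ≤ deriv φ s := fun s => Real.smoothTransition.monotone.deriv_nonneg
  have hle0 : a - 1 / c ≤ a := by have := one_div_pos.2 hc; linarith
  have hsupp : ∀ t ∉ Icc (a - 1 / c) a, h t = 0 := by
    intro t ht
    have he : ∀ᶠ s in 𝓝 (c * (a - t)), φ s = φ (c * (a - t)) := by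
      rcases not_and_or.1 ht with h1 | h1
      · have h2 : 1 < c * (a - t) := by
          have := mul_lt_mul_of_pos_left (show 1 / c < a - t by linarith) hc
          rwa [mul_one_div_cancel hc.ne'] at this
        filter_upwards [eventually_gt_nhds h2] with s hs
        show Real.smoothTransition s = Real.smoothTransition (c * (a - t))
        rw [Real.smoothTransition.one_of_one_le hs.le, Real.smoothTransition.one_of_one_le h2.le]
      · have h2 : c * (a - t) < 0 := mul_neg_of_pos_of_neg hc (by linarith)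
        filter_upwards [eventually_lt_nhds h2] with s hs
        show Real.smoothTransition s = Real.smoothTransition (c * (a - t))
        rw [Real.smoothTransition.zero_of_nonpos hs.le, Real.smoothTransition.zero_of_nonpos h2.le]
    have : deriv φ (c * (a - t)) = 0 := (EventuallyEq.deriv_eq he).trans (deriv_const _ _)
    simp [h, this]
  have hint : Integrable h := hh.integrable_of_hasCompactSupport
    (HasCompactSupport.intro isCompact_Icc hsupp)
  rw [← ofReal_integral_eq_lintegral_ofReal hint
    (Eventually.of_forall fun t => mul_nonneg (hd0 _) hc.le)]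
  refine ENNReal.ofReal_le_one.2 (le_of_eq ?_)
  rw [← setIntegral_eq_integral_of_forall_compl_eq_zero hsupp, integral_Icc_eq_integral_Ioc,
    ← intervalIntegral.integral_of_le hle0,
    intervalIntegral.integral_eq_sub_of_hasDerivAt (f := fun t => -φ (c * (a - t)))
      (fun t _ => ?_) (hh.intervalIntegrable _ _)]
  · have e : c * (a - (a - 1 / c)) = 1 := by field_simp; ring
    simp only [e]
    simp [φ]
  · have h1 : HasDerivAt (fun t => c * (a - t)) (-c) t := by
      simpa using ((hasDerivAt_id t).const_sub a).const_mul c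
    refine ((hφ.differentiable one_ne_zero (c * (a - t))).hasDerivAt.comp t h1).neg.congr_deriv ?_
    simp [h]

/-- The inequality for a nonnegative function. -/
theorem sobolev_nonneg (hn : 2 ≤ n) (H : Factor U u) {f : Coord n → ℝ} (hf : ContDiff ℝ 1 f)
    (hc : HasCompactSupport f) (hfU : tsupport f ⊆ U) (hf0 : ∀ x, 0 ≤ f x) :
    isoConst n * (∫ x, f x ^ ((n : ℝ) / (n - 1)) * wt U u x) ^ (((n : ℝ) - 1) / n) ≤
      ∫ x, gradDens U u f x := by
  have hn1 : (1 : ℝ) < n := by exact_mod_cast (show 1 < n by omega)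
  set p : ℝ := (n : ℝ) / (n - 1) with hpdef
  set r : ℝ := ((n : ℝ) - 1) / n with hrdef
  have hp0 : 0 < p := div_pos (by linarith) (by linarith)
  have hp1 : 0 ≤ p - 1 := by
    rw [hpdef, div_sub_one (by linarith), sub_sub_cancel]; exact div_nonneg zero_le_one (by linarith)
  have hr : 0 < r := div_pos (by linarith) (by linarith)
  have hiso : 0 < isoConst n := mul_pos (by linarith) (Real.rpow_pos_of_pos
    (ENNReal.toReal_pos (measure_ball_pos _ _ one_pos).ne' measure_ball_lt_top.ne) _)
  set K := tsupport f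
  have hK : IsCompact K := hc
  have hfK : ∀ x ∉ K, f x = 0 := fun x hx => image_eq_zero_of_notMem_tsupport hx
  have hwc := continuousOn_wt H.smooth.continuousOn H.pos
  have hGc : Continuous (gradDens U u f) := continuous_of_supp H.isOpen hK hfU
    ((((hf.continuous_fderiv one_ne_zero).norm.continuousOn).mul H.smooth.continuousOn).mul hwc)
    fun x hx => by simp [gradDens, fderiv_of_notMem_tsupport ℝ hx]
  have hGi : Integrable (gradDens U u f) := hGc.integrable_of_hasCompactSupport
    (HasCompactSupport.intro hK fun x hx => by simp [gradDens, fderiv_of_notMem_tsupport ℝ hx])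
  set φ := Real.smoothTransition
  have hφ : ContDiff ℝ 1 φ := Real.smoothTransition.contDiff
  let β : ℕ → ℝ → Coord n → ℝ := fun j t x => deriv φ (((j : ℝ) + 1) * (f x - t)) * ((j : ℝ) + 1)
  have hβ0 : ∀ j t x, 0 ≤ β j t x := fun j t x =>
    mul_nonneg Real.smoothTransition.monotone.deriv_nonneg (by positivity)
  let v : ℕ → ℝ → Coord n → ℝ := fun j t x => φ (((j : ℝ) + 1) * (f x - t))
  have hgrad : ∀ j t x, gradDens U u (v j t) x = β j t x * gradDens U u f x := by
    intro j t x
    have h : HasFDerivAt (v j t) (β j t x • fderiv ℝ f x) x := by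
      have h1 := ((hf.differentiable one_ne_zero x).hasFDerivAt.sub_const t).const_mul ((j : ℝ) + 1)
      refine ((hφ.differentiable one_ne_zero _).hasDerivAt.comp_hasFDerivAt x h1).congr_fderiv ?_
      simp [β, smul_smul, φ]
    rw [gradDens, h.fderiv, norm_smul, Real.norm_of_nonneg (hβ0 j t x), gradDens]
    ring
  let P : ℕ → ℝ → ℝ≥0∞ := fun j t => ∫⁻ x, ENNReal.ofReal (β j t x * gradDens U u f x)
  have hjm : ∀ j, Measurable fun z : ℝ × Coord n =>
      ENNReal.ofReal (β j z.1 z.2 * gradDens U u f z.2) := fun j =>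
    ((((hφ.continuous_deriv le_rfl).comp (by have := hf.continuous; fun_prop)).mul
      continuous_const).mul (hGc.comp continuous_snd)).measurable.ennreal_ofReal
  have hP1 : ∀ j, ∫⁻ t in Ioi (0:ℝ), P j t ≤ ENNReal.ofReal (∫ x, gradDens U u f x) := by
    intro j
    refine (lintegral_mono' Measure.restrict_le_self le_rfl).trans ?_
    rw [lintegral_lintegral_swap (hjm j).aemeasurable, ofReal_integral_eq_lintegral_ofReal hGi
      (Eventually.of_forall fun x => gradDens_nonneg H.pos f x)]
    refine lintegral_mono fun x => ?_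
    simp only [ENNReal.ofReal_mul (hβ0 j _ x)]
    rw [lintegral_mul_const' _ _ ENNReal.ofReal_ne_top]
    exact mul_le_of_le_one_left' (lintegral_bump_le j (f x))
  let S : ℝ → Set (Coord n) := fun t => {x | t < f x}
  have hSo : ∀ t, IsOpen (S t) := fun t => isOpen_lt continuous_const hf.continuous
  have hSK : ∀ t, 0 < t → S t ⊆ K := fun t ht x hx => by_contra fun h => by
    have h' : t < f x := hx
    rw [hfK x h] at h'
    exact lt_irrefl _ (ht.trans h')
  set W := wvol U u
  have : SFinite W := inferInstanceAs (SFinite (volume.withDensity _))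
  -- the bound for one level
  have hlev : ∀ t, 0 < t →
      ENNReal.ofReal (isoConst n) * W (S t) ^ r ≤ liminf (fun j => P j t) atTop := by
    intro t ht
    refine le_of_not_gt fun hlt => ?_
    obtain ⟨b, hb1, hb2⟩ := exists_between hlt
    have hbt : b ≠ ⊤ := hb2.ne_top
    have hvK : ∀ j, ∀ x ∉ K, v j t x = 0 := fun j x hx =>
      Real.smoothTransition.zero_of_nonpos
        (mul_nonpos_iff.2 (Or.inl ⟨by positivity, by rw [hfK x hx]; linarith⟩))
    have hlim : ∀ x, Tendsto (fun j => v j t x) atTop
        (𝓝 ((S t).indicator (fun _ => (1:ℝ)) x)) := by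
      intro x
      by_cases hx : x ∈ S t
      · rw [indicator_of_mem hx]
        have hpos : 0 < f x - t := sub_pos.2 hx
        refine tendsto_const_nhds.congr' (Eventually.mono
          ((tendsto_atTop_add_const_right atTop 1
            tendsto_natCast_atTop_atTop).eventually_ge_atTop (1 / (f x - t))) fun j hj => ?_)
        exact (Real.smoothTransition.one_of_one_le ((div_le_iff₀ hpos).1 hj)).symm
      · rw [indicator_of_notMem hx]
        refine tendsto_const_nhds.congr fun j => (Real.smoothTransition.zero_of_nonpos ?_).symm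
        exact mul_nonpos_iff.2 (Or.inl ⟨by positivity, sub_nonpos.2 (not_lt.1 hx)⟩)
    have hfr : ∃ᶠ j in atTop, ∫ x, gradDens U u (v j t) x ≤ b.toReal := by
      refine (frequently_lt_of_liminf_lt (h := hb1) ).mono fun j hj => ?_
      refine (ENNReal.ofReal_le_iff_le_toReal hbt).1 ?_
      simp only [hgrad]
      rw [ofReal_integral_eq_lintegral_ofReal ?_ (Eventually.of_forall fun x =>
        mul_nonneg (hβ0 j t x) (gradDens_nonneg H.pos f x))]
      · exact hj.le
      · exact ((((hφ.continuous_deriv le_rfl).comp (by have := hf.continuous; fun_prop)).mul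
          continuous_const).mul hGc).integrable_of_hasCompactSupport
          (HasCompactSupport.intro hK fun x hx => by
            simp [gradDens, fderiv_of_notMem_tsupport ℝ hx])
    have h := level_bound hn H hK hfU (hSo t) (hSK t ht) (v := fun j => v j t)
      (fun j => hφ.comp ((contDiff_const.mul (hf.sub contDiff_const))))
      (fun j x => ⟨Real.smoothTransition.nonneg _, Real.smoothTransition.le_one _⟩)
      hvK hlim hfr
    have h0 : 0 ≤ ∫ x in S t, wt U u x :=
      setIntegral_nonneg (hSo t).measurableSet fun x _ => wt_nonneg H.pos x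
    rw [wvol_apply_open H hK hfU (hSo t) (hSK t ht), ENNReal.ofReal_rpow_of_nonneg h0 hr.le,
      ← ENNReal.ofReal_mul hiso.le] at hb2
    exact absurd ((ENNReal.ofReal_le_ofReal h).trans ENNReal.ofReal_toReal_le) (not_le.2 hb2)
  -- all levels together
  let a : Coord n → ℝ≥0∞ := fun x => ENNReal.ofReal (f x)
  have ham : Measurable a := hf.continuous.measurable.ennreal_ofReal
  set F := ∫⁻ x, a x ^ p ∂W
  have hjS : MeasurableSet {z : ℝ × Coord n | z.1 < f z.2} :=
    (isOpen_lt continuous_fst (hf.continuous.comp continuous_snd)).measurableSet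
  have hFS : F ≤ F ^ ((1:ℝ) / n) * ∫⁻ t in Ioi (0:ℝ), W (S t) ^ r := by
    have hlayer : F = ∫⁻ t in Ioi (0:ℝ), ∫⁻ x, a x ^ (p - 1) * (S t).indicator 1 x ∂W := by
      rw [lintegral_lintegral_swap]
      · refine lintegral_congr fun x => ?_
        rw [lintegral_const_mul _ ?_]
        · have e : (fun t => (S t).indicator (1 : Coord n → ℝ≥0∞) x) = (Iio (f x)).indicator 1 := by
            ext t; by_cases h : t < f x <;> simp [S, h]
          rw [e, lintegral_indicator_one measurableSet_Iio,
            Measure.restrict_apply measurableSet_Iio, inter_comm, Ioi_inter_Iio, Real.volume_Ioo,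
            sub_zero]
          show a x ^ p = a x ^ (p - 1) * a x
          conv_rhs => arg 2; rw [← ENNReal.rpow_one (a x)]
          rw [← ENNReal.rpow_add_of_nonneg _ _ hp1 zero_le_one, sub_add_cancel]
        · have e : (fun t => (S t).indicator (1 : Coord n → ℝ≥0∞) x) = (Iio (f x)).indicator 1 := by
            ext t; by_cases h : t < f x <;> simp [S, h]
          rw [e]; exact measurable_one.indicator measurableSet_Iio
      · refine (((ham.comp measurable_snd).pow_const _).mul ?_).aemeasurable
        have e : (fun z : ℝ × Coord n => (S z.1).indicator (1 : Coord n → ℝ≥0∞) z.2) =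
            {z : ℝ × Coord n | z.1 < f z.2}.indicator 1 := by
          ext z; by_cases h : z.1 < f z.2 <;> simp [S, h]
        rw [e]; exact measurable_one.indicator hjS
    have hmS : Measurable fun t => W (S t) := measurable_measure_prodMk_left hjS
    rw [← lintegral_const_mul _ (hmS.pow_const r)]
    refine hlayer.le.trans (setLIntegral_mono' measurableSet_Ioi fun t _ => ?_)
    have hpq : Real.HolderConjugate (n : ℝ) p := by
      rw [Real.holderConjugate_iff]
      refine ⟨hn1, ?_⟩
      rw [hpdef]; field_simp; ring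
    refine (ENNReal.lintegral_mul_le_Lp_mul_Lq W hpq (ham.pow_const _).aemeasurable
      (measurable_one.indicator (hSo t).measurableSet).aemeasurable).trans (le_of_eq ?_)
    have e1 : ∀ x, (a x ^ (p - 1)) ^ (n : ℝ) = a x ^ p := fun x => by
      rw [← ENNReal.rpow_mul]
      congr 1
      have : (n : ℝ) - 1 ≠ 0 := by linarith
      rw [hpdef]; field_simp; ring
    have e2 : ∀ x, ((S t).indicator (1 : Coord n → ℝ≥0∞) x) ^ p = (S t).indicator 1 x := fun x => by
      by_cases h : x ∈ S t <;> simp [h, hp0]
    simp only [e1, e2, lintegral_indicator_one (hSo t).measurableSet]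
    rw [show (1:ℝ) / p = r by rw [hpdef, hrdef, one_div_div]]
  have hsum : ENNReal.ofReal (isoConst n) * ∫⁻ t in Ioi (0:ℝ), W (S t) ^ r ≤
      ENNReal.ofReal (∫ x, gradDens U u f x) := by
    rw [← lintegral_const_mul' _ _ ENNReal.ofReal_ne_top]
    calc ∫⁻ t in Ioi (0:ℝ), ENNReal.ofReal (isoConst n) * W (S t) ^ r
        ≤ ∫⁻ t in Ioi (0:ℝ), liminf (fun j => P j t) atTop :=
          setLIntegral_mono' measurableSet_Ioi fun t ht => hlev t ht
      _ ≤ liminf (fun j => ∫⁻ t in Ioi (0:ℝ), P j t) atTop :=
          lintegral_liminf_le fun j => (hjm j).lintegral_prod_right'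
      _ ≤ _ := liminf_le_of_frequently_le' (Eventually.frequently (Eventually.of_forall hP1))
  -- back to real numbers
  have hI : Integrable fun x => f x ^ p * wt U u x :=
    integrable_of_supp H.isOpen hK hfU
      (((hf.continuous.rpow_const fun x => Or.inr hp0.le).continuousOn).mul hwc)
      fun x hx => by simp [hfK x hx, Real.zero_rpow hp0.ne']
  set M := ∫ x, f x ^ p * wt U u x
  have hM0 : ∀ x, 0 ≤ f x ^ p * wt U u x := fun x =>
    mul_nonneg (Real.rpow_nonneg (hf0 x) _) (wt_nonneg H.pos x)
  have hFM : F = ENNReal.ofReal M := by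
    rw [ofReal_integral_eq_lintegral_ofReal hI (Eventually.of_forall hM0)]
    show ∫⁻ x, a x ^ p ∂(wvol U u) = _
    rw [wvol, lintegral_withDensity_eq_lintegral_mul _ (measurable_wt H).ennreal_ofReal
      (ham.pow_const _)]
    refine lintegral_congr fun x => ?_
    rw [Pi.mul_apply, ENNReal.ofReal_mul (Real.rpow_nonneg (hf0 x) _), mul_comm,
      ← ENNReal.ofReal_rpow_of_nonneg (hf0 x) hp0.le]
  have hG0 : 0 ≤ ∫ x, gradDens U u f x := integral_nonneg (gradDens_nonneg H.pos f)
  rcases (show 0 ≤ M from integral_nonneg hM0).eq_or_lt with hM | hM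
  · rw [← hM, Real.zero_rpow hr.ne', mul_zero]; exact hG0
  refine (ENNReal.ofReal_le_ofReal_iff hG0).1 (le_trans ?_ hsum)
  rw [ENNReal.ofReal_mul hiso.le]
  refine mul_le_mul' le_rfl ?_
  rw [← ENNReal.ofReal_rpow_of_pos hM, ← hFM]
  have hF0 : F ≠ 0 := by rw [hFM]; exact (ENNReal.ofReal_pos.2 hM).ne'
  have hFt : F ≠ ⊤ := by rw [hFM]; exact ENNReal.ofReal_ne_top
  rw [show r = 1 + -((1:ℝ) / n) by rw [hrdef]; field_simp; ring, ENNReal.rpow_add _ _ hF0 hFt,
    ENNReal.rpow_one, ENNReal.rpow_neg, ← div_eq_mul_inv]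
  refine ENNReal.div_le_of_le_mul ?_
  rw [show (1:ℝ) + -((1:ℝ) / n) = r by rw [hrdef]; field_simp; ring, mul_comm]
  exact hFS

/-- The sharp Sobolev inequality. -/
theorem sobolev (hn : 2 ≤ n) (H : Factor U u) {f : Coord n → ℝ} (hf : ContDiff ℝ 1 f)
    (hc : HasCompactSupport f) (hfU : tsupport f ⊆ U) :
    isoConst n * (∫ x, |f x| ^ ((n : ℝ) / (n - 1)) * wt U u x) ^ (((n : ℝ) - 1) / n) ≤
      ∫ x, gradDens U u f x := by
  have hn1 : (1 : ℝ) < n := by exact_mod_cast (show 1 < n by omega)
  have hp : 0 < (n : ℝ) / (n - 1) := div_pos (by linarith) (by linarith)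
  have hw0 := wt_nonneg (U := U) (u := u) H.pos
  have hwc := continuousOn_wt H.smooth.continuousOn H.pos
  let s : ℕ → ℝ := fun k => 1 / ((k : ℝ) + 1)
  have hs0 : ∀ k, 0 < s k := fun k => by positivity
  let g : ℕ → Coord n → ℝ := fun k x => Real.sqrt (f x ^ 2 + s k ^ 2) - s k
  have hpos : ∀ k x, 0 < f x ^ 2 + s k ^ 2 := fun k x =>
    add_pos_of_nonneg_of_pos (sq_nonneg _) (pow_pos (hs0 k) 2)
  have hg : ∀ k, ContDiff ℝ 1 (g k) := fun k =>
    (((hf.pow 2).add contDiff_const).sqrt fun x => (hpos k x).ne').sub contDiff_const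
  have hgs : ∀ k, ∀ x ∉ tsupport f, g k x = 0 := fun k x hx => by
    simp [g, image_eq_zero_of_notMem_tsupport hx, Real.sqrt_sq (hs0 k).le]
  have hgc : ∀ k, HasCompactSupport (g k) := fun k => HasCompactSupport.intro hc (hgs k)
  have hgU : ∀ k, tsupport (g k) ⊆ U := fun k => (closure_minimal
    (fun x hx => by_contra fun h => Function.mem_support.1 hx (hgs k x h))
    (isClosed_tsupport f)).trans hfU
  have hg0 : ∀ k x, 0 ≤ g k x := fun k x => by
    have := Real.sqrt_le_sqrt (le_add_of_nonneg_left (sq_nonneg (f x)) :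
      s k ^ 2 ≤ f x ^ 2 + s k ^ 2)
    rw [Real.sqrt_sq (hs0 k).le] at this
    exact sub_nonneg.2 this
  have hgle : ∀ k x, g k x ≤ |f x| := fun k x => by
    have : Real.sqrt (f x ^ 2 + s k ^ 2) ≤ |f x| + s k := by
      rw [Real.sqrt_le_left (by positivity)]
      nlinarith [sq_abs (f x), mul_nonneg (abs_nonneg (f x)) (hs0 k).le]
    simp only [g]
    linarith
  have hgrad : ∀ k x, gradDens U u (g k) x ≤ gradDens U u f x := by
    intro k x
    let c := f x / Real.sqrt (f x ^ 2 + s k ^ 2)
    have hd : fderiv ℝ (g k) x = c • fderiv ℝ f x := by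
      have h1 := ((((hf.differentiable one_ne_zero x).hasFDerivAt.pow 2).add_const (s k ^ 2)).sqrt
        (hpos k x).ne').sub_const (s k)
      rw [show fderiv ℝ (g k) x = _ from h1.fderiv]
      ext v
      simp [c]
      field_simp
    have hc1 : ‖c‖ ≤ 1 := by
      simp only [c, Real.norm_eq_abs, abs_div, abs_of_pos (Real.sqrt_pos.2 (hpos k x))]
      rw [div_le_one (Real.sqrt_pos.2 (hpos k x)), ← Real.sqrt_sq_eq_abs]
      exact Real.sqrt_le_sqrt (le_add_of_nonneg_right (sq_nonneg _))
    by_cases hx : x ∈ U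
    · simp only [gradDens, hd, norm_smul]
      exact mul_le_mul_of_nonneg_right (mul_le_mul_of_nonneg_right
        (mul_le_of_le_one_left (norm_nonneg _) hc1) (H.pos x hx).le) (hw0 x)
    · simp [gradDens, wt, indicator_of_notMem hx]
  have hint : ∀ {h : Coord n → ℝ}, ContDiff ℝ 1 h → HasCompactSupport h → tsupport h ⊆ U →
      Integrable (gradDens U u h) := fun {h} h1 h2 h3 =>
    integrable_of_supp H.isOpen h2 h3
      ((((h1.continuous_fderiv one_ne_zero).norm.continuousOn).mul H.smooth.continuousOn).mul hwc)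
      fun x hx => by simp [gradDens, fderiv_of_notMem_tsupport ℝ hx]
  have hle : ∀ k, isoConst n *
      (∫ x, g k x ^ ((n : ℝ) / (n - 1)) * wt U u x) ^ (((n : ℝ) - 1) / n) ≤
        ∫ x, gradDens U u f x := fun k =>
    (sobolev_nonneg hn H (hg k) (hgc k) (hgU k) (hg0 k)).trans
      (integral_mono (hint (hg k) (hgc k) (hgU k)) (hint hf hc hfU) (hgrad k))
  have hlim : Tendsto (fun k => ∫ x, g k x ^ ((n : ℝ) / (n - 1)) * wt U u x) atTop
      (𝓝 (∫ x, |f x| ^ ((n : ℝ) / (n - 1)) * wt U u x)) := by
    refine tendsto_integral_of_dominated_convergence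
      (fun x => |f x| ^ ((n : ℝ) / (n - 1)) * wt U u x)
      (fun k => (((hg k).continuous.rpow_const fun x => Or.inr hp.le).measurable.mul
        (measurable_wt H)).aestronglyMeasurable) ?_ (fun k => ?_) ?_
    · refine integrable_of_supp H.isOpen hc hfU
        (((hf.continuous.abs).rpow_const fun x => Or.inr hp.le).continuousOn.mul hwc) fun x hx => ?_
      simp [image_eq_zero_of_notMem_tsupport hx, Real.zero_rpow hp.ne']
    · refine Eventually.of_forall fun x => ?_
      rw [Real.norm_of_nonneg (mul_nonneg (Real.rpow_nonneg (hg0 k x) _) (hw0 x))]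
      exact mul_le_mul_of_nonneg_right (Real.rpow_le_rpow (hg0 k x) (hgle k x) hp.le) (hw0 x)
    · refine Eventually.of_forall fun x => ?_
      have hs : Tendsto s atTop (𝓝 0) := tendsto_one_div_add_atTop_nhds_zero_nat
      have h0 : Tendsto (fun k => g k x) atTop (𝓝 (Real.sqrt (f x ^ 2 + 0 ^ 2) - 0)) :=
        ((tendsto_const_nhds.add (hs.pow 2)).sqrt).sub hs
      rw [sub_zero, zero_pow (two_ne_zero), add_zero, Real.sqrt_sq_eq_abs] at h0
      exact (h0.rpow_const (Or.inr hp.le)).mul_const _
  exact le_of_tendsto' ((hlim.rpow_const (Or.inr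
    (div_nonneg (by linarith) (by linarith)))).const_mul _) hle

/-- The sharp isoperimetric inequality for relaxed perimeters. -/
theorem isoperimetric (hn : 2 ≤ n) (H : Factor U u) {S : Set (Coord n)} (hS : MeasurableSet S)
    (f : ℕ → Coord n → ℝ) (P : ℝ) (hf : ∀ k, ContDiff ℝ 1 (f k))
    (hc : ∀ k, HasCompactSupport (f k)) (hfU : ∀ k, tsupport (f k) ⊆ U)
    (hL : Tendsto (fun k => ∫⁻ x, ENNReal.ofReal
      (|f k x - S.indicator (fun _ => (1:ℝ)) x| * wt U u x)) atTop (𝓝 0))
    (hP : ∀ k, ∫ x, gradDens U u (f k) x ≤ P) :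
    (∫⁻ x in S, ENNReal.ofReal (wt U u x)) ≤
      ENNReal.ofReal ((P / isoConst n) ^ ((n : ℝ) / (n - 1))) := by
  have hn1 : (1 : ℝ) < n := by exact_mod_cast (show 1 < n by omega)
  set p : ℝ := (n : ℝ) / (n - 1) with hp
  have hp0 : 0 < p := div_pos (by linarith) (by linarith)
  have hiso : 0 < isoConst n := mul_pos (by linarith) (Real.rpow_pos_of_pos
    (ENNReal.toReal_pos (measure_ball_pos _ _ one_pos).ne' measure_ball_lt_top.ne) _)
  set w := wt U u with hw
  have hw0 : ∀ x, 0 ≤ w x := wt_nonneg H.pos
  set μ : Measure (Coord n) := volume.withDensity fun x => ENNReal.ofReal (w x) with hμ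
  have hwm : Measurable fun x => ENNReal.ofReal (w x) := (measurable_wt H).ennreal_ofReal
  have hm : TendstoInMeasure μ f atTop (S.indicator fun _ => (1:ℝ)) := by
    refine tendstoInMeasure_of_tendsto_eLpNorm one_ne_zero
      (fun k => (hf k).continuous.aestronglyMeasurable)
      ((measurable_const.indicator hS).aestronglyMeasurable) ?_
    refine hL.congr fun k => ?_
    rw [eLpNorm_one_eq_lintegral_enorm, hμ, lintegral_withDensity_eq_lintegral_mul _ hwm
      (((hf k).continuous.measurable.sub (measurable_const.indicator hS)).enorm)]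
    refine lintegral_congr fun x => ?_
    rw [Pi.mul_apply, Pi.sub_apply, Real.enorm_eq_ofReal_abs, ← ENNReal.ofReal_mul (hw0 x),
      mul_comm]
  obtain ⟨ns, -, hns⟩ := hm.exists_seq_tendsto_ae
  rw [hμ, ae_withDensity_iff hwm] at hns
  have hbd : ∀ i, ∫⁻ x, ENNReal.ofReal (|f (ns i) x| ^ p * w x) ≤
      ENNReal.ofReal ((P / isoConst n) ^ p) := by
    intro i
    have h := (sobolev hn H (hf (ns i)) (hc (ns i)) (hfU (ns i))).trans (hP (ns i))
    have hI : Integrable fun x => |f (ns i) x| ^ p * w x :=
      integrable_of_supp H.isOpen (hc (ns i)) (hfU (ns i))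
        (((hf (ns i)).continuous.abs.rpow_const fun x => Or.inr hp0.le).continuousOn.mul
          (continuousOn_wt H.smooth.continuousOn H.pos))
        fun x hx => by simp [image_eq_zero_of_notMem_tsupport hx, Real.zero_rpow hp0.ne']
    have hI0 : ∀ x, 0 ≤ |f (ns i) x| ^ p * w x := fun x =>
      mul_nonneg (Real.rpow_nonneg (abs_nonneg _) _) (hw0 x)
    rw [← ofReal_integral_eq_lintegral_ofReal hI (Eventually.of_forall hI0)]
    refine ENNReal.ofReal_le_ofReal ?_
    set I := ∫ x, |f (ns i) x| ^ p * w x
    have hI1 : 0 ≤ I := integral_nonneg hI0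
    have h2 : I ^ (((n : ℝ) - 1) / n) ≤ P / isoConst n := by
      rw [le_div_iff₀' hiso]; exact h
    have h3 := Real.rpow_le_rpow (Real.rpow_nonneg hI1 _) h2 hp0.le
    rwa [← Real.rpow_mul hI1, show ((n : ℝ) - 1) / n * p = 1 by
      rw [hp]
      have : (n:ℝ) - 1 ≠ 0 := by linarith
      have : (n:ℝ) ≠ 0 := by linarith
      field_simp, Real.rpow_one] at h3
  rw [← lintegral_indicator hS]
  calc ∫⁻ x, S.indicator (fun x => ENNReal.ofReal (w x)) x
      ≤ ∫⁻ x, liminf (fun i => ENNReal.ofReal (|f (ns i) x| ^ p * w x)) atTop := by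
        refine lintegral_mono_ae ?_
        filter_upwards [hns] with x hx
        rcases (hw0 x).eq_or_lt with h0 | h0
        · by_cases hxS : x ∈ S <;> simp [← h0, hxS]
        have hx' := hx (ENNReal.ofReal_pos.2 h0).ne'
        have h1 := (ENNReal.tendsto_ofReal (((hx'.abs).rpow_const (Or.inr hp0.le)).mul_const (w x)))
        rw [h1.liminf_eq]
        by_cases hxS : x ∈ S
        · simp [indicator_of_mem hxS]
        · simp [indicator_of_notMem hxS]
    _ ≤ liminf (fun i => ∫⁻ x, ENNReal.ofReal (|f (ns i) x| ^ p * w x)) atTop :=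
        lintegral_liminf_le fun i =>
          (((hf (ns i)).continuous.abs.rpow_const fun x => Or.inr hp0.le).measurable.mul
            (measurable_wt H)).ennreal_ofReal
    _ ≤ _ := liminf_le_of_frequently_le' (Eventually.frequently (Eventually.of_forall hbd))

end Vale.Agent.P219.Conformal
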